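import Vale.Agent.P344.Scalar

/-!
The determinant potential, normalized by the sup norms of the coefficient vectors.
-/

namespace Vale.Agent.P344

open scoped Classical
open Matrix

noncomputable section

variable {n : ℕ}

/-- The product of the cancellation factors of all gates of a circuit. -/
def kappaProd : List Gate → List (Fin n → ℂ) → ℝ
  | [], _ => 1
  | g :: gs, vals => g.kappa vals * kappaProd gs (vals ++ [g.evalV vals])

lemma kappaProd_eq (gs : List Gate) (vals : List (Fin n → ℂ)) :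
    kappaProd gs vals = (kappaList gs vals).prod := by
  induction gs generalizing vals with
  | nil => rfl
  | cons g gs ih => simp only [kappaProd, kappaList, List.prod_cons, ih]

lemma length_kappaList (gs : List Gate) (vals : List (Fin n → ℂ)) :
    (kappaList gs vals).length = gs.length := by
  induction gs generalizing vals with
  | nil => rfl
  | cons g gs ih => simp only [kappaList, List.length_cons, ih]

/-- `Inv T Δ`: every determinant of `n` members of `T` is at most `Δ` times the product of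
their sup norms. -/
def Inv (T : Finset (Fin n → ℂ)) (Δ : ℝ) : Prop :=
  ∀ s : Fin n → Fin n → ℂ, (∀ i, s i ∈ T) → ‖(Matrix.of s).det‖ ≤ Δ * ∏ i, ‖s i‖

lemma norm_bas (k : Fin n) : ‖bas k‖ = 1 := by
  simp [bas, Pi.norm_single]

lemma prod_norm_nonneg (s : Fin n → Fin n → ℂ) : 0 ≤ ∏ i, ‖s i‖ :=
  Finset.prod_nonneg fun _ _ => norm_nonneg _

lemma det_of_eq_zero_of_zero {s : Fin n → Fin n → ℂ} {i : Fin n} (h : s i = 0) :
    (Matrix.of s).det = 0 :=
  Matrix.det_eq_zero_of_row_eq_zero i fun j => by simp [h]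

lemma inv_base : Inv (insert 0 (Finset.univ.image (bas : Fin n → _))) 1 := by
  intro s hs
  by_cases h0 : ∃ i, s i = 0
  · obtain ⟨i, hi⟩ := h0
    rw [det_of_eq_zero_of_zero hi, norm_zero, one_mul]
    exact prod_norm_nonneg s
  · push Not at h0
    have hf : ∀ i, ∃ k, s i = bas k := by
      intro i
      rcases Finset.mem_insert.1 (hs i) with h | h
      · exact absurd h (h0 i)
      · obtain ⟨k, _, hk⟩ := Finset.mem_image.1 h
        exact ⟨k, hk.symm⟩
    choose f hf using hf
    have hprod : ∏ i, ‖s i‖ = 1 := by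
      apply Finset.prod_eq_one
      intro i _
      rw [hf i, norm_bas]
    rw [hprod, mul_one]
    by_cases hinj : Function.Injective f
    · have hbij : Function.Bijective f := Finite.injective_iff_bijective.1 hinj
      have hM : Matrix.of s
          = (1 : Matrix (Fin n) (Fin n) ℂ).submatrix (Equiv.ofBijective f hbij) id := by
        ext i j
        simp [hf i, bas, Matrix.one_apply, Pi.single_apply, eq_comm]
      rw [hM, Matrix.det_permute, Matrix.det_one, mul_one]
      rcases Int.units_eq_one_or (Equiv.Perm.sign (Equiv.ofBijective f hbij)) with h | h <;>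
        simp [h]
    · have : ∃ i j, f i = f j ∧ i ≠ j := by
        simpa [Function.Injective] using hinj
      obtain ⟨i, j, hij, hne⟩ := this
      rw [Matrix.det_zero_of_row_eq (M := Matrix.of s) hne (show s i = s j by rw [hf i, hf j, hij])]
      simp

/-- Inserting one new vector `w`: it is enough to control the tuples in which `w` occurs once. -/
lemma inv_insert {T : Finset (Fin n → ℂ)} {Δ Δ' : ℝ} (hΔ : Δ ≤ Δ') (hΔ' : 0 ≤ Δ') (hT : Inv T Δ)
    (w : Fin n → ℂ)
    (hw : ∀ (s : Fin n → Fin n → ℂ) (i0 : Fin n), (∀ i, i ≠ i0 → s i ∈ T) → s i0 = w →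
      ‖(Matrix.of s).det‖ ≤ Δ' * ∏ i, ‖s i‖) :
    Inv (insert w T) Δ' := by
  intro s hs
  by_cases hall : ∀ i, s i ∈ T
  · exact (hT s hall).trans (mul_le_mul_of_nonneg_right hΔ (prod_norm_nonneg s))
  · push Not at hall
    obtain ⟨i0, hi0⟩ := hall
    have hi0w : s i0 = w := (Finset.mem_insert.1 (hs i0)).resolve_right hi0
    by_cases hoth : ∀ i, i ≠ i0 → s i ∈ T
    · exact hw s i0 hoth hi0w
    · push Not at hoth
      obtain ⟨i1, hne, hi1⟩ := hoth
      have hi1w : s i1 = w := (Finset.mem_insert.1 (hs i1)).resolve_right hi1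
      have hdet : (Matrix.of s).det = 0 :=
        Matrix.det_zero_of_row_eq (M := Matrix.of s) hne (show s i1 = s i0 by rw [hi0w, hi1w])
      rw [hdet, norm_zero]
      exact mul_nonneg hΔ' (prod_norm_nonneg s)

lemma prod_update (s : Fin n → Fin n → ℂ) (i0 : Fin n) (x : Fin n → ℂ) :
    ∏ i, ‖Function.update s i0 x i‖ = ‖x‖ * ∏ i ∈ Finset.univ.erase i0, ‖s i‖ := by
  rw [← Finset.mul_prod_erase Finset.univ _ (Finset.mem_univ i0), Function.update_self]
  congr 1
  refine Finset.prod_congr rfl fun i hi => ?_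
  rw [Function.update_of_ne (Finset.ne_of_mem_erase hi)]

lemma prod_split (s : Fin n → Fin n → ℂ) (i0 : Fin n) :
    ∏ i, ‖s i‖ = ‖s i0‖ * ∏ i ∈ Finset.univ.erase i0, ‖s i‖ :=
  (Finset.mul_prod_erase Finset.univ _ (Finset.mem_univ i0)).symm

lemma inv_update {T : Finset (Fin n → ℂ)} {Δ : ℝ} (hT : Inv T Δ) {s : Fin n → Fin n → ℂ}
    {i0 : Fin n} (hoth : ∀ i, i ≠ i0 → s i ∈ T) {x : Fin n → ℂ} (hx : x ∈ T) :
    ‖((Matrix.of s).updateRow i0 x).det‖ ≤ Δ * (‖x‖ * ∏ i ∈ Finset.univ.erase i0, ‖s i‖) := by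
  have := hT (Function.update s i0 x) (by
    intro i
    by_cases hi : i = i0
    · subst hi
      rwa [Function.update_self]
    · rw [Function.update_of_ne hi]
      exact hoth i hi)
  rwa [prod_update] at this

lemma of_eq_updateRow (s : Fin n → Fin n → ℂ) (i0 : Fin n) :
    Matrix.of s = (Matrix.of s).updateRow i0 (s i0) :=
  (Matrix.updateRow_eq_self (Matrix.of s) i0).symm

lemma inv_smul {T : Finset (Fin n → ℂ)} {Δ : ℝ} (h0 : 0 ≤ Δ) (hT : Inv T Δ) {u : Fin n → ℂ}
    (hu : u ∈ T) (c : ℂ) : Inv (insert (c • u) T) Δ := by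
  refine inv_insert le_rfl h0 hT _ fun s i0 hoth hi0 => ?_
  rw [of_eq_updateRow s i0, hi0, Matrix.det_updateRow_smul, norm_mul, prod_split s i0, hi0,
    norm_smul]
  have := inv_update hT hoth hu
  calc ‖c‖ * ‖((Matrix.of s).updateRow i0 u).det‖
      ≤ ‖c‖ * (Δ * (‖u‖ * ∏ i ∈ Finset.univ.erase i0, ‖s i‖)) :=
        mul_le_mul_of_nonneg_left this (norm_nonneg c)
    _ = Δ * (‖c‖ * ‖u‖ * ∏ i ∈ Finset.univ.erase i0, ‖s i‖) := by ring

lemma one_le_kap {u v w : Fin n → ℂ} (hw : ‖w‖ ≤ ‖u‖ + ‖v‖) : 1 ≤ kap u v w := by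
  unfold kap
  split_ifs with h
  · exact le_rfl
  · have hpos : 0 < ‖w‖ := norm_pos_iff.2 h
    refine le_min ?_ ((one_le_div hpos).2 hw)
    have : 0 < n := by
      rcases Nat.eq_zero_or_pos n with h0 | h0
      · subst h0
        exact absurd (Subsingleton.elim w 0) h
      · exact h0
    exact_mod_cast this

/-- The step for an additive gate. -/
lemma inv_add {T : Finset (Fin n → ℂ)} {Δ : ℝ} (h0 : 0 ≤ Δ) (hT : Inv T Δ) {u v : Fin n → ℂ}
    (hu : u ∈ T) (hv : v ∈ T) (hb : ∀ k, bas k ∈ T) (ε : ℂ) (hε : ‖ε‖ = 1) :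
    Inv (insert (u + ε • v) T) (Δ * kap u v (u + ε • v)) := by
  set w := u + ε • v with hwdef
  have htri : ‖w‖ ≤ ‖u‖ + ‖v‖ := by
    calc ‖w‖ ≤ ‖u‖ + ‖ε • v‖ := norm_add_le _ _
      _ = ‖u‖ + ‖v‖ := by rw [norm_smul, hε, one_mul]
  have hk1 : 1 ≤ kap u v w := one_le_kap htri
  refine inv_insert (le_mul_of_one_le_right h0 hk1) (mul_nonneg h0 (by linarith)) hT _
    fun s i0 hoth hi0 => ?_
  set Q := ∏ i ∈ Finset.univ.erase i0, ‖s i‖ with hQ
  have hQ0 : 0 ≤ Q := Finset.prod_nonneg fun _ _ => norm_nonneg _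
  rw [prod_split s i0, hi0]
  by_cases hw0 : w = 0
  · rw [det_of_eq_zero_of_zero (hi0.trans hw0), hw0]
    simp
  have hwpos : 0 < ‖w‖ := norm_pos_iff.2 hw0
  -- first bound
  have b1 : ‖(Matrix.of s).det‖ ≤ Δ * ((‖u‖ + ‖v‖) * Q) := by
    rw [of_eq_updateRow s i0, hi0, hwdef, Matrix.det_updateRow_add, Matrix.det_updateRow_smul]
    have e1 := inv_update hT hoth hu
    have e2 := inv_update hT hoth hv
    calc _ ≤ ‖((Matrix.of s).updateRow i0 u).det‖ + ‖ε * ((Matrix.of s).updateRow i0 v).det‖ :=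
          norm_add_le _ _
      _ = ‖((Matrix.of s).updateRow i0 u).det‖ + ‖((Matrix.of s).updateRow i0 v).det‖ := by
          rw [norm_mul, hε, one_mul]
      _ ≤ Δ * (‖u‖ * Q) + Δ * (‖v‖ * Q) := add_le_add e1 e2
      _ = Δ * ((‖u‖ + ‖v‖) * Q) := by ring
  -- second bound
  have b2 : ‖(Matrix.of s).det‖ ≤ Δ * ((n : ℝ) * ‖w‖ * Q) := by
    rw [Matrix.det_eq_sum_mul_adjugate_row (Matrix.of s) i0]
    calc _ ≤ ∑ j, ‖(Matrix.of s) i0 j * (Matrix.of s).adjugate j i0‖ := norm_sum_le _ _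
      _ ≤ ∑ _j : Fin n, ‖w‖ * (Δ * Q) := by
          refine Finset.sum_le_sum fun j _ => ?_
          rw [norm_mul, Matrix.adjugate_apply]
          have e1 : ‖(Matrix.of s) i0 j‖ ≤ ‖w‖ := by
            rw [Matrix.of_apply, hi0]
            exact norm_le_pi_norm w j
          have e2 := inv_update hT hoth (hb j)
          rw [norm_bas, one_mul] at e2
          exact mul_le_mul e1 e2 (norm_nonneg _) (norm_nonneg _)
      _ = Δ * ((n : ℝ) * ‖w‖ * Q) := by
          rw [Finset.sum_const, Finset.card_univ, Fintype.card_fin, nsmul_eq_mul]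
          ring
  have hkap : kap u v w * ‖w‖ = min ((n : ℝ) * ‖w‖) (‖u‖ + ‖v‖) := by
    unfold kap
    rw [if_neg hw0, min_mul_of_nonneg _ _ hwpos.le, div_mul_cancel₀ _ hwpos.ne']
  have : ‖(Matrix.of s).det‖ ≤ Δ * (min ((n : ℝ) * ‖w‖) (‖u‖ + ‖v‖) * Q) := by
    rcases min_choice ((n : ℝ) * ‖w‖) (‖u‖ + ‖v‖) with h | h <;> rw [h]
    · exact b2
    · exact b1
  calc _ ≤ Δ * (min ((n : ℝ) * ‖w‖) (‖u‖ + ‖v‖) * Q) := this
    _ = Δ * kap u v w * (‖w‖ * Q) := by rw [← hkap]; ring

lemma kappa_nonneg (vals : List (Fin n → ℂ)) (g : Gate) : 0 ≤ g.kappa vals := by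
  have hk : ∀ u v w : Fin n → ℂ, 0 ≤ kap u v w := by
    intro u v w
    unfold kap
    split_ifs
    · exact zero_le_one
    · exact le_min (Nat.cast_nonneg _) (by positivity)
  cases g <;> simp only [Gate.kappa] <;> first | exact hk _ _ _ | exact zero_le_one

theorem inv_runV (gs : List Gate) : ∀ (l : List (Fin n → ℂ)) (Δ : ℝ), 0 ≤ Δ →
    (∀ k, bas k ∈ insert 0 l.toFinset) → Inv (insert 0 l.toFinset) Δ →
    Inv (insert 0 (runV gs l).toFinset) (Δ * kappaProd gs l) := by
  induction gs with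
  | nil =>
    intro l Δ _ _ h
    simpa [runV, kappaProd] using h
  | cons g gs ih =>
    intro l Δ h0 hb h
    simp only [runV, kappaProd]
    rw [← mul_assoc]
    refine ih _ _ (mul_nonneg h0 (kappa_nonneg l g)) ?_ ?_
    · intro k
      rw [toFinset_append_singleton]
      exact Finset.mem_insert_of_mem (hb k)
    · rw [toFinset_append_singleton]
      cases g with
      | add i j =>
        have := inv_add h0 h (getD_mem l i) (getD_mem l j) hb 1 (by simp)
        simpa [Gate.kappa, Gate.evalV] using this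
      | sub i j =>
        have := inv_add h0 h (getD_mem l i) (getD_mem l j) hb (-1) (by simp)
        simpa [Gate.kappa, Gate.evalV, sub_eq_add_neg] using this
      | smul c i =>
        have := inv_smul h0 h (getD_mem l i) c
        simpa [Gate.kappa, Gate.evalV] using this

end

end Vale.Agent.P344
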