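import Vale.Agent.P344.Cancel

/-!
The determinant of the Fourier matrix and the cancellation bound.
-/

namespace Vale.Agent.P344

open scoped Classical
open Matrix

noncomputable section

variable {n : ℕ}

lemma norm_zeta (hn : 0 < n) : ‖zeta n‖ = 1 := (zeta_prim hn).norm'_eq_one hn.ne'

lemma norm_row_le (hn : 0 < n) (j : Fin n) : ‖row n j‖ ≤ 1 := by
  rw [pi_norm_le_iff_of_nonneg zero_le_one]
  intro k
  simp [row, norm_pow, norm_zeta hn]

lemma star_zeta_pow (hn : 0 < n) (a : ℕ) : star (zeta n ^ a) = (zeta n ^ a)⁻¹ := by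
  have : ‖zeta n ^ a‖ = 1 := by rw [norm_pow, norm_zeta hn, one_pow]
  rw [Complex.inv_eq_conj this]
  rfl

lemma fourier_mul_conjTranspose (hn : 0 < n) :
    Matrix.of (row n) * (Matrix.of (row n))ᴴ = (n : ℂ) • (1 : Matrix (Fin n) (Fin n) ℂ) := by
  have hz : zeta n ≠ 0 := Complex.exp_ne_zero _
  ext j j'
  rw [Matrix.mul_apply]
  simp only [Matrix.conjTranspose_apply, Matrix.of_apply, row, star_zeta_pow hn, Matrix.smul_apply,
    Matrix.one_apply, smul_eq_mul]
  by_cases hjj : j = j'
  · subst hjj
    simp [mul_inv_cancel₀ (pow_ne_zero _ hz)]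
  · rw [if_neg hjj, mul_zero]
    set w := zeta n ^ (j : ℕ) * (zeta n ^ (j' : ℕ))⁻¹ with hw
    have hterm : ∀ k : Fin n, zeta n ^ ((j : ℕ) * (k : ℕ)) * (zeta n ^ ((j' : ℕ) * (k : ℕ)))⁻¹
        = w ^ (k : ℕ) := by
      intro k
      rw [hw, mul_pow, inv_pow, ← pow_mul, ← pow_mul]
    rw [Finset.sum_congr rfl fun k _ => hterm k, Fin.sum_univ_eq_sum_range (fun k => w ^ k) n]
    have hwn : w ^ n = 1 := by
      rw [hw, mul_pow, inv_pow, ← pow_mul, ← pow_mul, mul_comm (j : ℕ), mul_comm (j' : ℕ), pow_mul,
        pow_mul, (zeta_prim hn).pow_eq_one]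
      simp
    have hw1 : w - 1 ≠ 0 := by
      intro e
      have e1 : zeta n ^ (j : ℕ) = zeta n ^ (j' : ℕ) := by
        have : w = 1 := sub_eq_zero.1 e
        rw [hw] at this
        field_simp at this
        exact this
      exact hjj (Fin.ext ((zeta_prim hn).pow_inj j.2 j'.2 e1))
    have := mul_geom_sum w n
    rw [hwn, sub_self] at this
    exact (mul_eq_zero.1 this).resolve_left hw1

lemma norm_det_fourier_sq (hn : 0 < n) : ‖(Matrix.of (row n)).det‖ ^ 2 = (n : ℝ) ^ n := by
  have h1 := congrArg Matrix.det (fourier_mul_conjTranspose hn)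
  rw [Matrix.det_mul, Matrix.det_conjTranspose, Matrix.det_smul, Matrix.det_one, mul_one,
    Fintype.card_fin] at h1
  have h2 : (Matrix.of (row n)).det * star (Matrix.of (row n)).det
      = ((‖(Matrix.of (row n)).det‖ ^ 2 : ℝ) : ℂ) := by
    rw [Complex.star_def, Complex.mul_conj, Complex.normSq_eq_norm_sq]
  rw [h2] at h1
  exact_mod_cast h1

lemma inputForms_eq : inputForms n = List.ofFn (bas : Fin n → _) := rfl

/-- The cancellation bound: the product of the cancellation factors is at least `n ^ (n / 2)`. -/
theorem cancel_bound {gs : List Gate} {out : Fin n → ℕ} (h : Computes n gs out) :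
    (n : ℝ) ^ n ≤ (kappaProd gs (inputForms n)) ^ 2 := by
  rcases Nat.eq_zero_or_pos n with h0 | hn
  · subst h0
    -- all cancellation factors are at least... handled directly: the product of determinants
    have hinv := inv_runV (n := 0) gs (inputForms 0) 1 zero_le_one (fun k => k.elim0) (by
      intro s _
      simp)
    have := hinv (fun i => i.elim0) (fun i => i.elim0)
    simp only [Matrix.det_isEmpty, norm_one, one_mul, Finset.univ_eq_empty, Finset.prod_empty,
      mul_one] at this
    simp only [pow_zero]
    nlinarith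
  · have hbase : Inv (insert 0 (inputForms n).toFinset) 1 := by
      have : (inputForms n).toFinset = Finset.univ.image (bas : Fin n → _) := by
        ext v
        simp [inputForms_eq, List.mem_ofFn]
      rw [this]
      exact inv_base
    have hb : ∀ k, bas k ∈ insert 0 (inputForms n).toFinset := by
      intro k
      simp [inputForms_eq, List.mem_ofFn]
    have hinv := inv_runV gs (inputForms n) 1 zero_le_one hb hbase
    have hrows : ∀ j, row n j ∈ insert 0 (runV gs (inputForms n)).toFinset := by
      intro j
      rw [← runV_out h j]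
      exact getD_mem _ _
    have h1 := hinv (row n) hrows
    rw [one_mul] at h1
    have hK : 0 ≤ kappaProd gs (inputForms n) := by
      by_contra hneg
      push Not at hneg
      have h2 : kappaProd gs (inputForms n) * ∏ i, ‖row n i‖ ≤ 0 :=
        mul_nonpos_of_nonpos_of_nonneg hneg.le (prod_norm_nonneg _)
      have h3 : ‖(Matrix.of (row n)).det‖ = 0 := le_antisymm (h1.trans h2) (norm_nonneg _)
      have h4 := norm_det_fourier_sq hn
      rw [h3] at h4
      have : (0 : ℝ) < (n : ℝ) ^ n := by positivity
      rw [← h4] at this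
      simp at this
    have hprod : ∏ i, ‖row n i‖ ≤ 1 :=
      Finset.prod_le_one (fun _ _ => norm_nonneg _) fun i _ => norm_row_le hn i
    have h5 : ‖(Matrix.of (row n)).det‖ ≤ kappaProd gs (inputForms n) :=
      h1.trans (mul_le_of_le_one_right hK hprod)
    rw [← norm_det_fourier_sq hn]
    exact pow_le_pow_left₀ (norm_nonneg _) h5 2

lemma kappa_le (hn : 0 < n) (vals : List (Fin n → ℂ)) (g : Gate) : g.kappa vals ≤ n := by
  have h1 : (1 : ℝ) ≤ n := by exact_mod_cast hn
  have hk : ∀ u v w : Fin n → ℂ, kap u v w ≤ n := by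
    intro u v w
    unfold kap
    split_ifs
    · exact h1
    · exact min_le_left _ _
  cases g <;> simp only [Gate.kappa] <;> first | exact hk _ _ _ | exact h1

lemma mem_kappaList (hn : 0 < n) (gs : List Gate) (vals : List (Fin n → ℂ)) :
    ∀ x ∈ kappaList gs vals, 0 ≤ x ∧ x ≤ n := by
  induction gs generalizing vals with
  | nil => intro x hx; simp [kappaList] at hx
  | cons g gs ih =>
    intro x hx
    simp only [kappaList, List.mem_cons] at hx
    rcases hx with rfl | hx
    · exact ⟨kappa_nonneg vals g, kappa_le hn vals g⟩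
    · exact ih _ x hx

lemma list_prod_le (N c : ℝ) (hN : 1 ≤ N) (hc : 1 ≤ c) (l : List ℝ)
    (hl : ∀ x ∈ l, 0 ≤ x ∧ x ≤ N) :
    0 ≤ l.prod ∧ l.prod ≤ c ^ l.length * N ^ (l.countP fun x => c < x) := by
  induction l with
  | nil => simp
  | cons a l ih =>
    obtain ⟨ih0, ih1⟩ := ih fun x hx => hl x (List.mem_cons_of_mem _ hx)
    obtain ⟨ha0, haN⟩ := hl a List.mem_cons_self
    refine ⟨by rw [List.prod_cons]; exact mul_nonneg ha0 ih0, ?_⟩
    rw [List.prod_cons, List.length_cons, List.countP_cons]
    have hcl : 0 ≤ c ^ l.length := by positivity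
    have hNl : 0 ≤ N ^ (l.countP fun x => c < x) := by positivity
    by_cases hac : c < a
    · simp only [hac, decide_true, if_true]
      calc a * l.prod ≤ N * (c ^ l.length * N ^ (l.countP fun x => c < x)) :=
            mul_le_mul haN ih1 ih0 (by linarith)
        _ ≤ c * (N * (c ^ l.length * N ^ (l.countP fun x => c < x))) :=
            le_mul_of_one_le_left (by positivity) hc
        _ = c ^ (l.length + 1) * N ^ ((l.countP fun x => c < x) + 1) := by ring
    · simp only [hac, decide_false, Bool.false_eq_true, if_false, add_zero]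
      calc a * l.prod ≤ c * (c ^ l.length * N ^ (l.countP fun x => c < x)) :=
            mul_le_mul (not_lt.1 hac) ih1 ih0 (by linarith)
        _ = c ^ (l.length + 1) * N ^ (l.countP fun x => c < x) := by ring

/-- Both forms of the cancellation bound. -/
theorem cancel_bound' {gs : List Gate} {out : Fin n → ℕ} (h : Computes n gs out) :
    (n : ℝ) ^ n ≤ ((kappaList gs (inputForms n)).prod) ^ 2 ∧
    ∀ c : ℝ, 1 ≤ c → (n : ℝ) ^ n ≤
      (c ^ gs.length * (n : ℝ) ^ ((kappaList gs (inputForms n)).countP fun x => c < x)) ^ 2 := by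
  have h1 := cancel_bound h
  rw [kappaProd_eq] at h1
  refine ⟨h1, fun c hc => ?_⟩
  rcases Nat.eq_zero_or_pos n with h0 | hn
  · subst h0
    simp only [pow_zero]
    have : 1 ≤ c ^ gs.length := one_le_pow₀ hc
    by_cases hz : ((kappaList gs (inputForms 0)).countP fun x => c < x) = 0
    · rw [hz, pow_zero, mul_one]
      nlinarith
    · exfalso
      -- with no variables every cancellation factor equals one
      have hall : ∀ (gs : List Gate) (vals : List (Fin 0 → ℂ)), ∀ x ∈ kappaList gs vals, x = 1 := by
        intro gs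
        induction gs with
        | nil => intro vals x hx; simp [kappaList] at hx
        | cons g gs ih =>
          intro vals x hx
          simp only [kappaList, List.mem_cons] at hx
          rcases hx with rfl | hx
          · cases g <;> simp only [Gate.kappa, kap] <;> rfl
          · exact ih _ x hx
      apply hz
      rw [List.countP_eq_zero]
      intro x hx
      rw [hall gs _ x hx]
      simp only [decide_eq_true_eq, not_lt]
      exact hc
  · have hN : (1 : ℝ) ≤ n := by exact_mod_cast hn
    obtain ⟨h2, h3⟩ := list_prod_le n c hN hc _ (mem_kappaList hn gs (inputForms n))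
    rw [length_kappaList] at h3
    exact h1.trans (pow_le_pow_left₀ h2 h3 2)

end

end Vale.Agent.P344
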