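import Vale.Agent.P344.Defs

/-!
Coefficient vectors of the linear forms computed by a circuit, and the cancellation factor
of an additive gate.
-/

namespace Vale.Agent.P344

variable {n : ℕ}

/-- The coefficient vector of the linear form computed by a gate, from the list of the
coefficient vectors of the previously computed forms (a position outside the list reads `0`). -/
def Gate.evalV (vals : List (Fin n → ℂ)) : Gate → (Fin n → ℂ)
  | Gate.add i j => vals.getD i 0 + vals.getD j 0
  | Gate.sub i j => vals.getD i 0 - vals.getD j 0
  | Gate.smul c i => c • vals.getD i 0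

/-- Cancellation factor of a sum `w` of two forms `u`, `v` (norms are the sup norms of the
coefficient vectors): `(‖u‖ + ‖v‖) / ‖w‖`, capped at `n`; it is `1` if `w = 0`. -/
noncomputable def kap (u v w : Fin n → ℂ) : ℝ :=
  if w = 0 then 1 else min (n : ℝ) ((‖u‖ + ‖v‖) / ‖w‖)

/-- Cancellation factor of a gate; scalar gates have factor `1`. -/
noncomputable def Gate.kappa (vals : List (Fin n → ℂ)) : Gate → ℝ
  | Gate.add i j => kap (vals.getD i 0) (vals.getD j 0) (vals.getD i 0 + vals.getD j 0)
  | Gate.sub i j => kap (vals.getD i 0) (vals.getD j 0) (vals.getD i 0 - vals.getD j 0)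
  | Gate.smul _ _ => 1

/-- The list of the cancellation factors of the gates of a circuit, run on the list `vals`
of coefficient vectors. -/
noncomputable def kappaList : List Gate → List (Fin n → ℂ) → List ℝ
  | [], _ => []
  | g :: gs, vals => g.kappa vals :: kappaList gs (vals ++ [g.evalV vals])

/-- The coefficient vectors of the inputs `x_0, ..., x_{n-1}`. -/
def inputForms (n : ℕ) : List (Fin n → ℂ) := List.ofFn fun k : Fin n => Pi.single k 1

end Vale.Agent.P344
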