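import Vale.Agent.P344.Defs

namespace Vale.Agent.P344

/-- `L n`: the least number of gates of a linear circuit computing the unnormalized
discrete Fourier transform of order `n`. -/
noncomputable def L (n : ℕ) : ℕ :=
  sInf {s : ℕ | ∃ (gs : List Gate) (out : Fin n → ℕ), gs.length = s ∧ Computes n gs out}

end Vale.Agent.P344
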