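import Mathlib

/-!
# Linear circuits for the discrete Fourier transform (problem P344)

Straight-line linear circuits over the complex numbers, with gates `u + v`, `u - v`
and `c * u`, every gate costing one.
-/

namespace Vale.Agent.P344

/-- A gate of a linear circuit.  The natural numbers are positions in the list of
previously computed values (the inputs come first, then the gates in order). -/
inductive Gate : Type
  | add (i j : ℕ) : Gate
  | sub (i j : ℕ) : Gate
  | smul (c : ℂ) (i : ℕ) : Gate

/-- The value computed by a gate from the list of previously computed values.
A position outside the list reads the constant `0`. -/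
def Gate.eval (vals : List ℂ) : Gate → ℂ
  | Gate.add i j => vals.getD i 0 + vals.getD j 0
  | Gate.sub i j => vals.getD i 0 - vals.getD j 0
  | Gate.smul c i => c * vals.getD i 0

/-- Run a circuit (a list of gates): each gate appends its value to the list of values. -/
def run : List Gate → List ℂ → List ℂ
  | [], vals => vals
  | g :: gs, vals => run gs (vals ++ [g.eval vals])

/-- The root of unity `exp (2 π i / n)`. -/
noncomputable def zeta (n : ℕ) : ℂ := Complex.exp (2 * Real.pi * Complex.I / n)

/-- The circuit `gs`, with output positions `out`, computes the unnormalized discrete Fourier
transform `F_n x` exactly, for every input `x`. -/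
def Computes (n : ℕ) (gs : List Gate) (out : Fin n → ℕ) : Prop :=
  ∀ (x : Fin n → ℂ) (j : Fin n),
    (run gs (List.ofFn x)).getD (out j) 0 = ∑ k : Fin n, zeta n ^ ((j : ℕ) * (k : ℕ)) * x k

end Vale.Agent.P344
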