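import Vale.Agent.P344.Main

/-!
Every linear map is computed by some circuit, so the minimum defining `L n` is over a nonempty set.
-/

namespace Vale.Agent.P344

noncomputable section

variable {n : ℕ}

lemma run_append (gs gs' : List Gate) (l : List ℂ) : run (gs ++ gs') l = run gs' (run gs l) := by
  induction gs generalizing l with
  | nil => rfl
  | cons g gs ih => simp only [List.cons_append, run, ih]

lemma run_concat (gs : List Gate) (g : Gate) (l : List ℂ) :
    run (gs ++ [g]) l = run gs l ++ [g.eval (run gs l)] := by
  rw [run_append]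
  rfl

lemma length_run (gs : List Gate) (l : List ℂ) : (run gs l).length = l.length + gs.length := by
  induction gs generalizing l with
  | nil => rfl
  | cons g gs ih =>
    simp only [run, ih, List.length_append, List.length_cons, List.length_nil]
    omega

/-- The circuit `gs` computes the function `f` at some position inside its list of values. -/
def Has (n : ℕ) (gs : List Gate) (f : (Fin n → ℂ) → ℂ) : Prop :=
  ∃ i, i < n + gs.length ∧ ∀ x : Fin n → ℂ, (run gs (List.ofFn x)).getD i 0 = f x

lemma getD_append_of_lt (l : List ℂ) (a : ℂ) {i : ℕ} (h : i < l.length) :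
    (l ++ [a]).getD i 0 = l.getD i 0 := by
  rw [List.getD_append _ _ _ _ h]

lemma getD_append_length (l : List ℂ) (a : ℂ) : (l ++ [a]).getD l.length 0 = a := by
  rw [List.getD_append_right _ _ _ _ (le_refl _)]
  simp

lemma length_run_ofFn (gs : List Gate) (x : Fin n → ℂ) :
    (run gs (List.ofFn x)).length = n + gs.length := by
  rw [length_run, List.length_ofFn]

lemma Has.concat {gs : List Gate} {f : (Fin n → ℂ) → ℂ} (h : Has n gs f) (g : Gate) :
    Has n (gs ++ [g]) f := by
  obtain ⟨i, hi, hf⟩ := h
  refine ⟨i, by simp; omega, fun x => ?_⟩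
  rw [run_concat, getD_append_of_lt _ _ (by rw [length_run_ofFn]; exact hi), hf]

lemma Has.append {gs : List Gate} {f : (Fin n → ℂ) → ℂ} (h : Has n gs f) (gs' : List Gate) :
    Has n (gs ++ gs') f := by
  induction gs' using List.reverseRecOn with
  | nil => simpa using h
  | append_singleton l g ih =>
    rw [← List.append_assoc]
    exact ih.concat g

lemma has_new (gs : List Gate) (g : Gate) :
    Has n (gs ++ [g]) fun x => g.eval (run gs (List.ofFn x)) := by
  refine ⟨n + gs.length, by simp, fun x => ?_⟩
  rw [run_concat, ← length_run_ofFn gs x, getD_append_length]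

lemma has_input (gs : List Gate) (k : Fin n) : Has n gs fun x => x k := by
  have h0 : Has n [] fun x : Fin n → ℂ => x k := by
    refine ⟨k, by simp, fun x => ?_⟩
    simp only [run]
    rw [List.getD_eq_getElem _ _ (by simp)]
    simp
  simpa using h0.append gs

/-- Any partial sum of a linear form can be appended to any circuit. -/
lemma exists_has_sum (c : Fin n → ℂ) (s : Finset (Fin n)) (gs : List Gate) :
    ∃ gs', Has n (gs ++ gs') fun x => ∑ k ∈ s, c k * x k := by
  classical
  induction s using Finset.induction_on with
  | empty =>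
    refine ⟨[Gate.smul 0 0], ?_⟩
    have := has_new (n := n) gs (Gate.smul 0 0)
    simpa [Gate.eval] using this
  | insert k s hk ih =>
    obtain ⟨gs1, i, hi, hf⟩ := ih
    obtain ⟨j, hj, hx⟩ := has_input (n := n) (gs ++ gs1) k
    -- first the scalar gate, then the addition
    set G1 := gs ++ gs1 with hG1
    set G2 := G1 ++ [Gate.smul (c k) j] with hG2
    refine ⟨gs1 ++ [Gate.smul (c k) j, Gate.add (n + G1.length) i], ?_⟩
    have e : gs ++ (gs1 ++ [Gate.smul (c k) j, Gate.add (n + G1.length) i])
        = G2 ++ [Gate.add (n + G1.length) i] := by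
      simp [hG2, hG1]
    rw [e]
    have := has_new (n := n) G2 (Gate.add (n + G1.length) i)
    convert this using 2 with x
    rw [Finset.sum_insert hk]
    simp only [Gate.eval, hG2, run_concat]
    rw [← length_run_ofFn G1 x, getD_append_length,
      getD_append_of_lt _ _ (by rw [length_run_ofFn]; exact hi), hf, hx]

/-- Any finite family of linear forms is computed by one circuit. -/
lemma exists_has_family (m : ℕ) (c : Fin m → Fin n → ℂ) :
    ∃ gs, ∀ t : Fin m, Has n gs fun x => ∑ k, c t k * x k := by
  induction m with
  | zero => exact ⟨[], fun t => t.elim0⟩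
  | succ m ih =>
    obtain ⟨gs, hgs⟩ := ih fun t => c t.castSucc
    obtain ⟨gs', h'⟩ := exists_has_sum (c (Fin.last m)) Finset.univ gs
    refine ⟨gs ++ gs', fun t => ?_⟩
    refine Fin.lastCases ?_ (fun t => ?_) t
    · exact h'
    · exact (hgs t).append gs'

/-- Some circuit computes the Fourier transform. -/
theorem exists_computes (n : ℕ) : ∃ (gs : List Gate) (out : Fin n → ℕ), Computes n gs out := by
  obtain ⟨gs, hgs⟩ := exists_has_family n fun j k : Fin n => zeta n ^ ((j : ℕ) * (k : ℕ))
  choose out _ hout using hgs
  exact ⟨gs, out, fun x j => hout j x⟩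

end

end Vale.Agent.P344
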