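import Vale.Agent.P344.LemmaB

/-!
Eliminating a well-chosen variable makes at least two computed lines disappear
(besides the line of the variable itself).
-/

namespace Vale.Agent.P344

open scoped Classical

noncomputable section

variable {n : ℕ}

lemma image_sdiff_eq {α β : Type*} [DecidableEq α] [DecidableEq β] {X R : Finset α} {f : α → β}
    (hcov : ∀ x ∈ R, ∃ y ∈ X \ R, f y = f x) : X.image f = (X \ R).image f := by
  apply Finset.Subset.antisymm
  · intro z hz
    obtain ⟨x, hx, rfl⟩ := Finset.mem_image.1 hz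
    by_cases hxR : x ∈ R
    · obtain ⟨y, hy, hyx⟩ := hcov x hxR
      exact Finset.mem_image.2 ⟨y, hy, hyx⟩
    · exact Finset.mem_image_of_mem _ (Finset.mem_sdiff.2 ⟨hx, hxR⟩)
  · exact Finset.image_subset_image Finset.sdiff_subset

/-- Some computed form is a combination of exactly two variables. -/
theorem exists_top_gate {K : Finset (Fin n)} {T : Finset (Fin n → ℂ)} (h : Stage K T)
    (hK : 2 ≤ K.card) :
    ∃ i ∈ K, ∃ j ∈ K, i ≠ j ∧ ∃ α β : ℂ, α ≠ 0 ∧ β ≠ 0 ∧ α • bas i + β • bas j ∈ T := by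
  by_contra hcon
  push Not at hcon
  obtain ⟨i0, hi0⟩ : K.Nonempty := Finset.card_pos.1 (by omega)
  have hP := h.gen (fun v => ∃ k ∈ K, ∃ c : ℂ, v = c • bas k) ⟨i0, hi0, 0, by simp⟩
    (fun k hk => ⟨k, hk, 1, by simp⟩)
    (by
      rintro _ _ _ _ α β ⟨k, hk, c, rfl⟩ ⟨l, hl, d, rfl⟩ hm
      rw [smul_smul, smul_smul] at hm ⊢
      by_cases hkl : k = l
      · subst hkl
        exact ⟨k, hk, α * c + β * d, by rw [add_smul]⟩
      · by_cases h1 : α * c = 0
        · exact ⟨l, hl, β * d, by rw [h1, zero_smul, zero_add]⟩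
        · by_cases h2 : β * d = 0
          · exact ⟨k, hk, α * c, by rw [h2, zero_smul, add_zero]⟩
          · exact absurd hm (hcon k hk l hl hkl _ _ h1 h2))
    _ (h.out_mem i0)
  obtain ⟨k, hk, c, hc⟩ := hP
  obtain ⟨l, hl, hlk⟩ := Finset.exists_mem_ne (by omega : 1 < K.card) k
  have := congrFun hc l
  simp only [Pi.smul_apply, bas_of_ne hlk, smul_eq_mul, mul_zero] at this
  exact proj_row_ne_zero hl i0 this

lemma ln_bas_ne_ln_bas {i j : Fin n} (hij : i ≠ j) : ln (bas i) ≠ ln (bas j) := by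
  intro e
  obtain ⟨c, _, hc⟩ := ln_eq_ln e
  have := congrFun hc j
  simp only [Pi.smul_apply, bas_self, bas_of_ne (Ne.symm hij), smul_eq_mul, mul_zero] at this
  exact zero_ne_one this

lemma ln_bas_ne_ln_comb {i j : Fin n} (hij : i ≠ j) (α : ℂ) {β : ℂ} (hβ : β ≠ 0) :
    ln (bas i) ≠ ln (α • bas i + β • bas j) := by
  intro e
  obtain ⟨c, _, hc⟩ := ln_eq_ln e
  have := congrFun hc j
  simp only [Pi.smul_apply, Pi.add_apply, bas_self, bas_of_ne (Ne.symm hij), smul_eq_mul, mul_zero,
    mul_one, zero_add] at this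
  exact hβ this.symm

lemma ln_bas_ne_ln_comb' {i j : Fin n} (hij : i ≠ j) {α : ℂ} (hα : α ≠ 0) (β : ℂ) :
    ln (bas j) ≠ ln (α • bas i + β • bas j) := by
  rw [add_comm]
  exact ln_bas_ne_ln_comb (Ne.symm hij) β hα

lemma kill_comb {i j : Fin n} (hij : i ≠ j) (α β : ℂ) :
    kill i (α • bas i + β • bas j) = β • bas j := by
  rw [map_add, map_smul, map_smul, kill_bas_self, kill_bas_of_ne (Ne.symm hij), smul_zero, zero_add]

/-- If eliminating `x_i` loses fewer than three lines, the projection is injective on the lines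
other than those of `x_i` and of the gate `α x_i + β x_j`. -/
lemma injOn_of_card {T : Finset (Fin n → ℂ)} (h0 : (0 : Fin n → ℂ) ∈ T) {i j : Fin n} (hij : i ≠ j)
    {α β : ℂ} (hα : α ≠ 0) (hβ : β ≠ 0) (hiT : bas i ∈ T) (hjT : bas j ∈ T)
    (hg : α • bas i + β • bas j ∈ T)
    (hcard : (lines T).card < (lines (T.image (kill i))).card + 3) :
    Set.InjOn (Submodule.map (kill i))
      ↑(lines T \ {ln (bas i), ln (α • bas i + β • bas j)}) := by
  set g := α • bas i + β • bas j with hgdef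
  set R : Finset (Submodule ℂ (Fin n → ℂ)) := {ln (bas i), ln g} with hR
  have hRcard : R.card = 2 := Finset.card_pair (ln_bas_ne_ln_comb hij α hβ)
  have hRsub : R ⊆ lines T := by
    intro x hx
    rcases Finset.mem_insert.1 hx with rfl | hx
    · exact ln_mem_lines hiT
    · rw [Finset.mem_singleton.1 hx]
      exact ln_mem_lines hg
  have hgne : g ≠ 0 := by
    intro e
    have := congrFun e j
    simp only [hgdef, Pi.smul_apply, Pi.add_apply, bas_self, bas_of_ne (Ne.symm hij), smul_eq_mul,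
      mul_zero, mul_one, zero_add, Pi.zero_apply] at this
    exact hβ this
  have hcov : ∀ x ∈ R, ∃ y ∈ lines T \ R, Submodule.map (kill i) y = Submodule.map (kill i) x := by
    intro x hx
    rcases Finset.mem_insert.1 hx with rfl | hx
    · refine ⟨ln 0, Finset.mem_sdiff.2 ⟨ln_mem_lines h0, ?_⟩, ?_⟩
      · intro e
        rw [ln_zero] at e
        rcases Finset.mem_insert.1 e with e | e
        · exact bas_ne_zero i (ln_eq_bot.1 e.symm)
        · exact hgne (ln_eq_bot.1 (Finset.mem_singleton.1 e).symm)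
      · rw [map_kill_ln, map_kill_ln, kill_bas_self, map_zero]
    · rw [Finset.mem_singleton.1 hx]
      refine ⟨ln (bas j), Finset.mem_sdiff.2 ⟨ln_mem_lines hjT, ?_⟩, ?_⟩
      · intro e
        rcases Finset.mem_insert.1 e with e | e
        · exact ln_bas_ne_ln_bas hij e.symm
        · exact ln_bas_ne_ln_comb' hij hα β (Finset.mem_singleton.1 e)
      · rw [map_kill_ln, map_kill_ln, kill_comb hij, kill_bas_of_ne (Ne.symm hij), ln_smul hβ]
  have h1 := image_sdiff_eq hcov
  have h2 := Finset.card_sdiff_add_card_eq_card hRsub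
  have h3 : ((lines T \ R).image (Submodule.map (kill i))).card ≤ (lines T \ R).card :=
    Finset.card_image_le
  rw [lines_image_kill, h1] at hcard
  exact Finset.card_image_iff.1 (by omega)

/-- Consequence of the injectivity: adding a multiple of `x_i` to a computed line gives nothing new. -/
lemma comb_cases {T : Finset (Fin n → ℂ)} {i j : Fin n} (hij : i ≠ j)
    {α β : ℂ} (hα : α ≠ 0) (hβ : β ≠ 0) (hjT : bas j ∈ T)
    (hinj : Set.InjOn (Submodule.map (kill i))
      ↑(lines T \ {ln (bas i), ln (α • bas i + β • bas j)}))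
    {b : Fin n → ℂ} (hb : ln b ∈ lines T) {c : ℂ} (hc : c ≠ 0) (hw : c • bas i + b ∈ T) :
    (∃ d : ℂ, c • bas i + b = d • bas i) ∨ (∃ d : ℂ, c • bas i + b = d • bas j) ∨
      (∃ d : ℂ, c • bas i + b = d • (α • bas i + β • bas j)) := by
  set g := α • bas i + β • bas j with hgdef
  set w := c • bas i + b with hwdef
  by_cases h1 : ∃ d : ℂ, w = d • bas i
  · exact Or.inl h1
  by_cases h3 : ∃ d : ℂ, w = d • g
  · exact Or.inr (Or.inr h3)
  refine Or.inr (Or.inl ?_)
  have hwX : ln w ∈ lines T \ {ln (bas i), ln g} := by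
    refine Finset.mem_sdiff.2 ⟨ln_mem_lines hw, ?_⟩
    intro e
    rcases Finset.mem_insert.1 e with e | e
    · obtain ⟨d, _, hd⟩ := ln_eq_ln e.symm
      exact h1 ⟨d, hd.symm⟩
    · obtain ⟨d, _, hd⟩ := ln_eq_ln (Finset.mem_singleton.1 e).symm
      exact h3 ⟨d, hd.symm⟩
  have hjX : ln (bas j) ∈ lines T \ {ln (bas i), ln g} := by
    refine Finset.mem_sdiff.2 ⟨ln_mem_lines hjT, ?_⟩
    intro e
    rcases Finset.mem_insert.1 e with e | e
    · exact ln_bas_ne_ln_bas hij e.symm
    · exact ln_bas_ne_ln_comb' hij hα β (Finset.mem_singleton.1 e)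
  have hkw : kill i w = kill i b := by
    rw [hwdef, map_add, map_smul, kill_bas_self, smul_zero, zero_add]
  by_cases hb1 : ln b = ln (bas i)
  · exfalso
    obtain ⟨d, _, hd⟩ := ln_eq_ln hb1.symm
    exact h1 ⟨c + d, by rw [hwdef, ← hd, add_smul]⟩
  by_cases hb2 : ln b = ln g
  · obtain ⟨d, hd0, hd⟩ := ln_eq_ln hb2.symm
    have e1 : Submodule.map (kill i) (ln w) = Submodule.map (kill i) (ln (bas j)) := by
      rw [map_kill_ln, map_kill_ln, hkw, ← hd, map_smul, hgdef, kill_comb hij,
        kill_bas_of_ne (Ne.symm hij), ln_smul hd0, ln_smul hβ]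
    have e2 := hinj (Finset.mem_coe.2 hwX) (Finset.mem_coe.2 hjX) e1
    obtain ⟨d', _, hd'⟩ := ln_eq_ln e2.symm
    exact ⟨d', hd'.symm⟩
  · exfalso
    have hbX : ln b ∈ lines T \ {ln (bas i), ln g} := by
      refine Finset.mem_sdiff.2 ⟨hb, ?_⟩
      intro e
      rcases Finset.mem_insert.1 e with e | e
      · exact hb1 e
      · exact hb2 (Finset.mem_singleton.1 e)
    have e1 : Submodule.map (kill i) (ln w) = Submodule.map (kill i) (ln b) := by
      rw [map_kill_ln, map_kill_ln, hkw]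
    have e2 := hinj (Finset.mem_coe.2 hwX) (Finset.mem_coe.2 hbX) e1
    obtain ⟨μ, _, hμ⟩ := ln_eq_ln e2.symm
    -- `μ • b = c • bas i + b`
    have e3 : (μ - 1) • b = c • bas i := by
      rw [sub_smul, one_smul, hμ, hwdef]
      abel
    have hμ1 : μ - 1 ≠ 0 := by
      intro e
      rw [e, zero_smul] at e3
      have := congrFun e3 i
      simp only [Pi.smul_apply, bas_self, smul_eq_mul, mul_one, Pi.zero_apply] at this
      exact hc this.symm
    have e4 : b = ((μ - 1)⁻¹ * c) • bas i := by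
      rw [mul_smul, ← e3, smul_smul, inv_mul_cancel₀ hμ1, one_smul]
    exact h1 ⟨μ * ((μ - 1)⁻¹ * c), by rw [← hμ, mul_smul, ← e4]⟩

/-- Eliminating a well-chosen variable loses at least three lines. -/
theorem exists_kill_three (hn : 2 ≤ n) {K : Finset (Fin n)} {T : Finset (Fin n → ℂ)}
    (h : Stage K T) (hK : 2 ≤ K.card) :
    ∃ i ∈ K, (lines (T.image (kill i))).card + 3 ≤ (lines T).card := by
  by_contra hcon
  push Not at hcon
  obtain ⟨i, hi, j, hj, hij, α, β, hα, hβ, hg⟩ := exists_top_gate h hK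
  have hiT := h.bas_mem i hi
  have hjT := h.bas_mem j hj
  have inj_i := injOn_of_card h.zero_mem hij hα hβ hiT hjT hg (hcon i hi)
  have hg' : β • bas j + α • bas i ∈ T := by rwa [add_comm]
  have inj_j := injOn_of_card h.zero_mem (Ne.symm hij) hβ hα hjT hiT hg' (hcon j hj)
  set P : (Fin n → ℂ) → Prop := fun v =>
    β * v i = α * v j ∨ (∃ d : ℂ, v = d • bas i) ∨ (∃ d : ℂ, v = d • bas j) with hPdef
  have hPsmul : ∀ (γ : ℂ) (v : Fin n → ℂ), P v → P (γ • v) := by
    rintro γ v (hv | ⟨d, rfl⟩ | ⟨d, rfl⟩)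
    · left
      simp only [Pi.smul_apply, smul_eq_mul]
      linear_combination γ * hv
    · exact Or.inr (Or.inl ⟨γ * d, by rw [smul_smul]⟩)
    · exact Or.inr (Or.inr ⟨γ * d, by rw [smul_smul]⟩)
  have hPg : ∀ d : ℂ, P (d • (α • bas i + β • bas j)) := by
    intro d
    left
    simp only [Pi.smul_apply, Pi.add_apply, bas_self, bas_of_ne hij, bas_of_ne (Ne.symm hij),
      smul_eq_mul]
    ring
  have Ci : ∀ (c : ℂ) (b : Fin n → ℂ), ln b ∈ lines T → P b → c • bas i + b ∈ T →
      P (c • bas i + b) := by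
    intro c b hb hPb hm
    by_cases hc : c = 0
    · rw [hc, zero_smul, zero_add]
      exact hPb
    · rcases comb_cases hij hα hβ hjT inj_i hb hc hm with ⟨d, hd⟩ | ⟨d, hd⟩ | ⟨d, hd⟩
      · exact Or.inr (Or.inl ⟨d, hd⟩)
      · exact Or.inr (Or.inr ⟨d, hd⟩)
      · rw [hd]
        exact hPg d
  have Cj : ∀ (c : ℂ) (b : Fin n → ℂ), ln b ∈ lines T → P b → c • bas j + b ∈ T →
      P (c • bas j + b) := by
    intro c b hb hPb hm
    by_cases hc : c = 0
    · rw [hc, zero_smul, zero_add]
      exact hPb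
    · rcases comb_cases (Ne.symm hij) hβ hα hiT inj_j hb hc hm with ⟨d, hd⟩ | ⟨d, hd⟩ | ⟨d, hd⟩
      · exact Or.inr (Or.inr ⟨d, hd⟩)
      · exact Or.inr (Or.inl ⟨d, hd⟩)
      · rw [hd, add_comm (β • bas j)]
        exact hPg d
  have hall := h.gen P (Or.inl (by simp))
    (by
      intro k _
      by_cases hki : k = i
      · subst hki
        exact Or.inr (Or.inl ⟨1, by simp⟩)
      · by_cases hkj : k = j
        · subst hkj
          exact Or.inr (Or.inr ⟨1, by simp⟩)
        · left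
          rw [bas_of_ne (Ne.symm hki), bas_of_ne (Ne.symm hkj)]
          simp)
    (by
      intro u hu v hv α' β' hPu hPv hm
      rcases hPu with hu0 | ⟨d, rfl⟩ | ⟨d, rfl⟩
      · rcases hPv with hv0 | ⟨d, rfl⟩ | ⟨d, rfl⟩
        · left
          simp only [Pi.smul_apply, Pi.add_apply, smul_eq_mul]
          linear_combination α' * hu0 + β' * hv0
        · rw [smul_smul, add_comm] at hm ⊢
          exact Ci _ _ (ln_smul_mem_lines h.zero_mem hu α') (hPsmul _ _ (Or.inl hu0)) hm
        · rw [smul_smul, add_comm] at hm ⊢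
          exact Cj _ _ (ln_smul_mem_lines h.zero_mem hu α') (hPsmul _ _ (Or.inl hu0)) hm
      · rw [smul_smul] at hm ⊢
        exact Ci _ _ (ln_smul_mem_lines h.zero_mem hv β') (hPsmul _ _ hPv) hm
      · rw [smul_smul] at hm ⊢
        exact Cj _ _ (ln_smul_mem_lines h.zero_mem hv β') (hPsmul _ _ hPv) hm)
  -- apply to the outputs
  have hout : ∀ r : Fin n, β * row n r i = α * row n r j := by
    intro r
    rcases hall _ (h.out_mem r) with h1 | ⟨d, hd⟩ | ⟨d, hd⟩
    · simpa [proj_apply, hi, hj] using h1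
    · exfalso
      have := congrFun hd j
      simp only [Pi.smul_apply, bas_of_ne (Ne.symm hij), smul_eq_mul, mul_zero] at this
      exact proj_row_ne_zero hj r this
    · exfalso
      have := congrFun hd i
      simp only [Pi.smul_apply, bas_of_ne hij, smul_eq_mul, mul_zero] at this
      exact proj_row_ne_zero hi r this
  have e0 := hout ⟨0, by omega⟩
  have e1 := hout ⟨1, by omega⟩
  simp only [row, zero_mul, pow_zero, mul_one, one_mul] at e0 e1
  rw [e0] at e1
  have e2 := mul_left_cancel₀ hα e1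
  exact hij (Fin.ext ((zeta_prim (by omega)).pow_inj i.2 j.2 e2))

end

end Vale.Agent.P344
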