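import Vale.Agent.P344.Trace

/-!
Lower bound for the number of scalar gates: `n ≤ s + (number of divisors of n)`.
-/

namespace Vale.Agent.P344

open scoped Classical
open Polynomial

noncomputable section

variable {n : ℕ}

/-- Pairing of a complex coefficient vector with a rational point, rational-linear in the point. -/
def qpair (v : Fin n → ℂ) : (Fin n → ℚ) →ₗ[ℚ] ℂ where
  toFun c := ∑ k, v k * (c k : ℂ)
  map_add' c d := by simp [mul_add, Finset.sum_add_distrib]
  map_smul' q c := by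
    simp only [Pi.smul_apply, smul_eq_mul, Rat.cast_mul, RingHom.id_apply, Finset.smul_sum]
    refine Finset.sum_congr rfl fun k _ => ?_
    rw [Rat.smul_def]
    ring

lemma qpair_apply (v : Fin n → ℂ) (c : Fin n → ℚ) : qpair v c = ∑ k, v k * (c k : ℂ) := rfl

lemma finrank_le_inf_ker_add_one (K : Submodule ℚ (Fin n → ℚ)) (f : (Fin n → ℚ) →ₗ[ℚ] ℂ)
    (hf : ∀ c ∈ K, ∃ q : ℚ, f c = q) :
    Module.finrank ℚ K ≤ Module.finrank ℚ (K ⊓ LinearMap.ker f : Submodule ℚ (Fin n → ℚ)) + 1 := by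
  have h1 := LinearMap.finrank_range_add_finrank_ker (f.domRestrict K)
  have h2 : Module.finrank ℚ (LinearMap.ker (f.domRestrict K))
      = Module.finrank ℚ (K ⊓ LinearMap.ker f : Submodule ℚ (Fin n → ℚ)) := by
    rw [LinearMap.ker_domRestrict, ← Submodule.map_comap_subtype, Submodule.finrank_map_subtype_eq]
  have h3 : LinearMap.range (f.domRestrict K) ≤ Submodule.span ℚ {(1 : ℂ)} := by
    rintro _ ⟨c, rfl⟩
    obtain ⟨q, hq⟩ := hf c c.2
    rw [Submodule.mem_span_singleton]
    refine ⟨q, ?_⟩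
    rw [LinearMap.domRestrict_apply, hq, Rat.smul_def, mul_one]
  have h4 : Module.finrank ℚ (LinearMap.range (f.domRestrict K)) ≤ 1 := by
    calc _ ≤ Module.finrank ℚ (Submodule.span ℚ {(1 : ℂ)}) := Submodule.finrank_mono h3
      _ = 1 := finrank_span_singleton one_ne_zero
  omega

/-- The invariant of the scalar count. -/
theorem tr_rational {T : Finset (Fin n → ℂ)} {a s : ℕ} (h : Tr n T a s) :
    ∃ K : Submodule ℚ (Fin n → ℚ), n ≤ Module.finrank ℚ K + s ∧
      ∀ v ∈ T, ∀ c ∈ K, ∃ q : ℚ, qpair v c = q := by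
  induction h with
  | base =>
    refine ⟨⊤, by simp, ?_⟩
    intro v hv c _
    rcases Finset.mem_insert.1 hv with rfl | hv
    · exact ⟨0, by simp [qpair_apply]⟩
    · obtain ⟨k, _, rfl⟩ := Finset.mem_image.1 hv
      exact ⟨c k, by simp [qpair_apply, bas, Pi.single_apply]⟩
  | @add T a s u v _ hu hv ih =>
    obtain ⟨K, hK, hT⟩ := ih
    refine ⟨K, hK, ?_⟩
    intro w hw c hc
    rcases Finset.mem_insert.1 hw with rfl | hw
    · obtain ⟨q1, h1⟩ := hT u hu c hc
      obtain ⟨q2, h2⟩ := hT v hv c hc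
      refine ⟨q1 + q2, ?_⟩
      rw [Rat.cast_add, ← h1, ← h2]
      simp [qpair_apply, add_mul, Finset.sum_add_distrib]
    · exact hT w hw c hc
  | @sub T a s u v _ hu hv ih =>
    obtain ⟨K, hK, hT⟩ := ih
    refine ⟨K, hK, ?_⟩
    intro w hw c hc
    rcases Finset.mem_insert.1 hw with rfl | hw
    · obtain ⟨q1, h1⟩ := hT u hu c hc
      obtain ⟨q2, h2⟩ := hT v hv c hc
      refine ⟨q1 - q2, ?_⟩
      rw [Rat.cast_sub, ← h1, ← h2]
      simp [qpair_apply, sub_mul, Finset.sum_sub_distrib]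
    · exact hT w hw c hc
  | @smul T a s u lam _ hu ih =>
    obtain ⟨K, hK, hT⟩ := ih
    refine ⟨K ⊓ LinearMap.ker (qpair u), ?_, ?_⟩
    · have := finrank_le_inf_ker_add_one K (qpair u) (hT u hu)
      omega
    · intro w hw c hc
      rcases Finset.mem_insert.1 hw with rfl | hw
      · refine ⟨0, ?_⟩
        have h0 : qpair u c = 0 := hc.2
        rw [qpair_apply] at h0 ⊢
        simp only [Pi.smul_apply, smul_eq_mul, mul_assoc, ← Finset.mul_sum, h0, mul_zero,
          Rat.cast_zero]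
      · exact hT w hw c hc.1

/-- The polynomial with coefficient vector `c`. -/
def cpoly (c : Fin n → ℚ) : ℚ[X] := ∑ k : Fin n, C (c k) * X ^ (k : ℕ)

lemma aeval_cpoly (c : Fin n → ℚ) (z : ℂ) : aeval z (cpoly c) = ∑ k : Fin n, z ^ (k : ℕ) * (c k : ℂ) := by
  simp only [cpoly, map_sum, map_mul, aeval_C, map_pow, aeval_X]
  refine Finset.sum_congr rfl fun k _ => ?_
  rw [mul_comm]
  rfl

lemma cpoly_eq_zero {c : Fin n → ℚ} (h : cpoly c = 0) : c = 0 := by
  funext k
  have := congrArg (fun p => p.coeff (k : ℕ)) h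
  simp only [cpoly, finsetSum_coeff, coeff_C_mul, coeff_X_pow, coeff_zero] at this
  rw [Finset.sum_eq_single k] at this
  · simpa using this
  · intro b _ hb
    have : (k : ℕ) ≠ (b : ℕ) := fun e => hb (Fin.ext e.symm)
    simp [this]
  · simp

lemma zeta_prim (hn : 0 < n) : IsPrimitiveRoot (zeta n) n :=
  Complex.isPrimitiveRoot_exp n hn.ne'

lemma zeta_pow_prim (hn : 0 < n) (j : ℕ) : IsPrimitiveRoot (zeta n ^ j) (n / Nat.gcd j n) := by
  have hd : 0 < Nat.gcd j n := Nat.gcd_pos_of_pos_right _ hn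
  have h1 : IsPrimitiveRoot (zeta n ^ Nat.gcd j n) (n / Nat.gcd j n) :=
    (zeta_prim hn).pow_of_dvd hd.ne' (Nat.gcd_dvd_right _ _)
  have h2 := h1.pow_of_coprime (j / Nat.gcd j n) (Nat.coprime_div_gcd_div_gcd hd)
  rwa [← pow_mul, Nat.mul_div_cancel' (Nat.gcd_dvd_left _ _)] at h2

/-- Conjugate roots of unity: a rational polynomial vanishing at one primitive root vanishes
at every primitive root of the same order. -/
lemma aeval_eq_zero_of_prim {e : ℕ} (he : 0 < e) {μ μ' : ℂ} (h : IsPrimitiveRoot μ e)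
    (h' : IsPrimitiveRoot μ' e) {P : ℚ[X]} (hP : aeval μ P = 0) : aeval μ' P = 0 := by
  have h1 : minpoly ℚ μ ∣ P := minpoly.dvd ℚ μ hP
  rw [← cyclotomic_eq_minpoly_rat h he, cyclotomic_eq_minpoly_rat h' he] at h1
  obtain ⟨Q, rfl⟩ := h1
  simp [minpoly.aeval]

/-- Row with a natural-number index. -/
def rowN (n j : ℕ) : Fin n → ℂ := fun k => zeta n ^ (j * (k : ℕ))

lemma qpair_rowN (j : ℕ) (c : Fin n → ℚ) : qpair (rowN n j) c = aeval (zeta n ^ j) (cpoly c) := by
  rw [aeval_cpoly, qpair_apply]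
  simp [rowN, pow_mul]

lemma rowN_mod (hn : 0 < n) (j : ℕ) : rowN n j = row n ⟨j % n, Nat.mod_lt _ hn⟩ := by
  funext k
  have h1 : zeta n ^ n = 1 := (zeta_prim hn).pow_eq_one
  simp only [rowN, row]
  rw [pow_eq_pow_mod (j * k) h1, pow_eq_pow_mod (j % n * k) h1, Nat.mod_mul_mod]

/-- The evaluation map at the roots `zeta ^ d`, `d` a divisor of `n`. -/
def divEval (n : ℕ) : (Fin n → ℚ) →ₗ[ℚ] (n.divisors → ℂ) :=
  LinearMap.pi fun d => qpair (rowN n (d : ℕ))

lemma divEval_injective (hn : 0 < n) : Function.Injective (divEval n) := by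
  rw [← LinearMap.ker_eq_bot, LinearMap.ker_eq_bot']
  intro c hc
  apply cpoly_eq_zero
  have hroot : ∀ j : Fin n, aeval (zeta n ^ (j : ℕ)) (cpoly c) = 0 := by
    intro j
    have hd : Nat.gcd j n ∈ n.divisors := Nat.mem_divisors.2 ⟨Nat.gcd_dvd_right _ _, hn.ne'⟩
    have h0 : qpair (rowN n (Nat.gcd j n)) c = 0 := congrFun hc ⟨_, hd⟩
    rw [qpair_rowN] at h0
    have hp1 := zeta_pow_prim hn (Nat.gcd j n)
    rw [Nat.gcd_gcd_self_left_right] at hp1
    have hpos : 0 < n / Nat.gcd j n :=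
      Nat.div_pos (Nat.le_of_dvd hn (Nat.gcd_dvd_right _ _)) (Nat.gcd_pos_of_pos_right _ hn)
    exact aeval_eq_zero_of_prim hpos hp1 (zeta_pow_prim hn j) h0
  have hmap : (cpoly c).map (algebraMap ℚ ℂ) = 0 := by
    apply eq_zero_of_natDegree_lt_card_of_eval_eq_zero (f := fun j : Fin n => zeta n ^ (j : ℕ))
    · intro i j hij
      exact Fin.ext ((zeta_prim hn).pow_inj i.2 j.2 hij)
    · intro j
      rw [eval_map_algebraMap]
      exact hroot j
    · rw [natDegree_map, Fintype.card_fin]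
      by_cases h0 : cpoly c = 0
      · simpa [h0] using hn
      · exact (natDegree_lt_iff_degree_lt h0).2 (degree_sum_fin_lt c)
  exact (Polynomial.map_eq_zero _).1 hmap

/-- Rational-valued functions inside complex-valued functions. -/
def ratIncl (ι : Type) : (ι → ℚ) →ₗ[ℚ] (ι → ℂ) where
  toFun f := fun d => (f d : ℂ)
  map_add' f g := by funext d; simp
  map_smul' q f := by funext d; simp [Rat.smul_def]

theorem scalar_bound (hn : 0 < n) {T : Finset (Fin n → ℂ)} {a s : ℕ} (h : Tr n T a s)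
    (hrows : ∀ j, row n j ∈ T) : n ≤ s + n.divisors.card := by
  obtain ⟨K, hK, hT⟩ := tr_rational h
  have h1 : Module.finrank ℚ K = Module.finrank ℚ (K.map (divEval n)) :=
    (Submodule.equivMapOfInjective (divEval n) (divEval_injective hn) K).finrank_eq
  have h2 : K.map (divEval n) ≤ LinearMap.range (ratIncl n.divisors) := by
    rintro _ ⟨c, hc, rfl⟩
    have : ∀ d : n.divisors, ∃ q : ℚ, qpair (rowN n (d : ℕ)) c = q := by
      intro d
      rw [rowN_mod hn]
      exact hT _ (hrows _) c hc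
    choose q hq using this
    exact ⟨q, by funext d; exact (hq d).symm⟩
  have h3 : Module.finrank ℚ (K.map (divEval n)) ≤ n.divisors.card := by
    calc _ ≤ Module.finrank ℚ (LinearMap.range (ratIncl n.divisors)) := Submodule.finrank_mono h2
      _ ≤ Module.finrank ℚ (n.divisors → ℚ) := LinearMap.finrank_range_le _
      _ = n.divisors.card := by rw [Module.finrank_fintype_fun_eq_card, Fintype.card_coe]
  omega

end

end Vale.Agent.P344
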