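import Vale.Agent.P344.Lines
import Vale.Agent.P344.Scalar

/-!
Eliminating one variable: at least one collision besides those among the outputs.
-/

namespace Vale.Agent.P344

open scoped Classical

noncomputable section

variable {n : ℕ}

lemma zeta_ne_zero (n : ℕ) : zeta n ≠ 0 := Complex.exp_ne_zero _

lemma row_ne_zero (j k : Fin n) : row n j k ≠ 0 := pow_ne_zero _ (zeta_ne_zero n)

lemma proj_row_ne_zero {K : Finset (Fin n)} {k : Fin n} (hk : k ∈ K) (j : Fin n) :
    proj K (row n j) k ≠ 0 := by
  rw [proj_apply, if_pos hk]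
  exact row_ne_zero j k

lemma bas_self (i : Fin n) : bas i i = 1 := by simp [bas]

lemma bas_of_ne {i k : Fin n} (h : k ≠ i) : bas i k = 0 := by simp [bas, h]

lemma bas_ne_zero (i : Fin n) : bas i ≠ 0 := fun h => by
  have := congrFun h i
  simp [bas_self] at this

lemma ln_bas_ne_out {K : Finset (Fin n)} {i k : Fin n} (hk : k ∈ K) (hki : k ≠ i) (j : Fin n) :
    ln (bas i) ≠ ln (proj K (row n j)) := by
  intro h
  obtain ⟨c, _, hc⟩ := ln_eq_ln h
  have := congrFun hc k
  simp only [Pi.smul_apply, bas_of_ne hki, smul_eq_mul, mul_zero] at this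
  exact proj_row_ne_zero hk j this.symm

lemma ln_bas_notMem_outs {K : Finset (Fin n)} {i k : Fin n} (hk : k ∈ K) (hki : k ≠ i) :
    ln (bas i) ∉ outs K := by
  intro h
  obtain ⟨j, _, hj⟩ := Finset.mem_image.1 h
  exact ln_bas_ne_out hk hki j hj.symm

lemma ln_notMem_outs_of_apply_eq_zero {K : Finset (Fin n)} {i : Fin n} (hi : i ∈ K)
    {b : Fin n → ℂ} (hb : b i = 0) : ln b ∉ outs K := by
  intro h
  obtain ⟨j, _, hj⟩ := Finset.mem_image.1 h
  obtain ⟨c, hc0, hc⟩ := ln_eq_ln hj
  have := congrFun hc i
  simp only [Pi.smul_apply, smul_eq_mul, hb] at this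
  exact (mul_ne_zero hc0 (proj_row_ne_zero hi j)) this

lemma bot_notMem_outs {K : Finset (Fin n)} {i : Fin n} (hi : i ∈ K) : (⊥ : Submodule ℂ _) ∉ outs K := by
  rw [← ln_zero]
  exact ln_notMem_outs_of_apply_eq_zero hi rfl

/-- Some computed form involving `x_i` projects onto a computed form not involving `x_i`. -/
theorem exists_collision {K : Finset (Fin n)} {T : Finset (Fin n → ℂ)} (h : Stage K T)
    {i k : Fin n} (hi : i ∈ K) (hk : k ∈ K) (hki : k ≠ i) :
    ∃ b ∈ T, ∃ p ∈ T, b i = 0 ∧ b ≠ 0 ∧ p i ≠ 0 ∧ ln (kill i p) = ln b := by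
  by_contra hcon
  push Not at hcon
  have key : ∀ u ∈ T, u i = 0 → ∀ (α γ : ℂ), α • u + γ • bas i ∈ T →
      ((α • u + γ • bas i) i = 0 ∨ ∃ c : ℂ, α • u + γ • bas i = c • bas i) := by
    intro u hu hu0 α γ hm
    by_cases hw : (α • u + γ • bas i) i = 0
    · exact Or.inl hw
    · by_cases hαu : α • u = 0
      · exact Or.inr ⟨γ, by rw [hαu, zero_add]⟩
      · exfalso
        have hα : α ≠ 0 := fun e => hαu (by rw [e, zero_smul])
        have hu' : u ≠ 0 := fun e => hαu (by rw [e, smul_zero])
        refine hcon u hu _ hm hu0 hu' hw ?_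
        rw [map_add, map_smul, map_smul, kill_bas_self, smul_zero, add_zero,
          kill_of_apply_eq_zero hu0, ln_smul hα]
  have hP := h.gen (fun v => v i = 0 ∨ ∃ c : ℂ, v = c • bas i) (Or.inl rfl)
    (fun l _ => by
      by_cases hl : l = i
      · subst hl
        exact Or.inr ⟨1, by simp⟩
      · exact Or.inl (bas_of_ne (Ne.symm hl)))
    (by
      intro u hu v hv α β hPu hPv hm
      rcases hPu with hu0 | ⟨c, rfl⟩
      · rcases hPv with hv0 | ⟨c', rfl⟩
        · left
          simp [hu0, hv0]
        · rw [smul_smul] at hm ⊢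
          exact key u hu hu0 α _ hm
      · rcases hPv with hv0 | ⟨c', rfl⟩
        · rw [smul_smul, add_comm] at hm ⊢
          exact key v hv hv0 β _ hm
        · right
          exact ⟨α * c + β * c', by rw [smul_smul, smul_smul, add_smul]⟩)
    _ (h.out_mem i)
  rcases hP with h0 | ⟨c, hc⟩
  · exact proj_row_ne_zero hi i h0
  · have := congrFun hc k
    simp only [Pi.smul_apply, bas_of_ne hki, smul_eq_mul, mul_zero] at this
    exact proj_row_ne_zero hk i this

/-- Eliminating the variable `x_i`: the number of lines drops by at least two, plus the number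
of collisions among output lines. -/
theorem card_lines_kill_le {K : Finset (Fin n)} {T : Finset (Fin n → ℂ)} (h : Stage K T)
    {i k : Fin n} (hi : i ∈ K) (hk : k ∈ K) (hki : k ≠ i) :
    (lines (T.image (kill i))).card + 2 + (outs K).card
      ≤ (lines T).card + (outs (K.erase i)).card := by
  obtain ⟨b, hbT, p, hpT, hb0, hbne, hp0, hpb⟩ := exists_collision h hi hk hki
  set f := Submodule.map (kill i) with hf
  obtain ⟨O', hO'sub, hO'inj, hO'img⟩ :=
    Finset.exists_subset_injOn_image_eq_of_surjOn (f := f) (↑(outs K)) (outs (K.erase i))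
      (by
        rw [outs_erase]
        intro y hy
        obtain ⟨x, hx, rfl⟩ := Finset.mem_image.1 (Finset.mem_coe.1 hy)
        exact ⟨x, Finset.mem_coe.2 hx, rfl⟩)
  have hO'sub' : O' ⊆ outs K := fun x hx => Finset.mem_coe.1 (hO'sub (Finset.mem_coe.2 hx))
  have hO'card : O'.card = (outs (K.erase i)).card := by
    rw [← hO'img]
    exact (Finset.card_image_of_injOn hO'inj).symm
  have hbi : ln b ≠ ln (bas i) := by
    intro e
    obtain ⟨c, hc0, hc⟩ := ln_eq_ln e.symm
    have := congrFun hc i
    simp only [Pi.smul_apply, bas_self, smul_eq_mul, mul_one, hb0] at this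
    exact hc0 this
  have hb_out : ln b ∉ outs K := ln_notMem_outs_of_apply_eq_zero hi hb0
  have hi_out : ln (bas i) ∉ outs K := ln_bas_notMem_outs hk hki
  set R : Finset (Submodule ℂ (Fin n → ℂ)) := insert (ln (bas i)) (insert (ln b) (outs K \ O'))
    with hR
  have hRcard : R.card = 2 + ((outs K).card - (outs (K.erase i)).card) := by
    rw [hR, Finset.card_insert_of_notMem, Finset.card_insert_of_notMem,
      Finset.card_sdiff_of_subset hO'sub', hO'card]
    · omega
    · intro e
      exact hb_out (Finset.mem_sdiff.1 e).1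
    · intro e
      rcases Finset.mem_insert.1 e with e | e
      · exact hbi e.symm
      · exact hi_out (Finset.mem_sdiff.1 e).1
  have hle : (outs (K.erase i)).card ≤ (outs K).card := by
    rw [outs_erase]
    exact Finset.card_image_le
  have hRsub : R ⊆ lines T := by
    intro x hx
    rcases Finset.mem_insert.1 hx with rfl | hx
    · exact ln_mem_lines (h.bas_mem i hi)
    · rcases Finset.mem_insert.1 hx with rfl | hx
      · exact ln_mem_lines hbT
      · exact outs_subset h (Finset.mem_sdiff.1 hx).1
  -- members of `O'` are outside `R`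
  have hO'R : ∀ y ∈ O', y ∈ lines T \ R := by
    intro y hy
    refine Finset.mem_sdiff.2 ⟨outs_subset h (hO'sub' hy), ?_⟩
    intro hyR
    rcases Finset.mem_insert.1 hyR with rfl | hyR
    · exact hi_out (hO'sub' hy)
    · rcases Finset.mem_insert.1 hyR with rfl | hyR
      · exact hb_out (hO'sub' hy)
      · exact (Finset.mem_sdiff.1 hyR).2 hy
  have hcovOut : ∀ x ∈ outs K, ∃ y ∈ lines T \ R, f y = f x := by
    intro x hx
    have : f x ∈ O'.image f := by
      rw [hO'img, outs_erase]
      exact Finset.mem_image_of_mem _ hx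
    obtain ⟨y, hy, hyx⟩ := Finset.mem_image.1 this
    exact ⟨y, hO'R y hy, hyx⟩
  have hcov : ∀ x ∈ R, ∃ y ∈ lines T \ R, f y = f x := by
    intro x hx
    rcases Finset.mem_insert.1 hx with rfl | hx
    · refine ⟨ln 0, Finset.mem_sdiff.2 ⟨ln_mem_lines h.zero_mem, ?_⟩, ?_⟩
      · intro e
        rw [ln_zero] at e
        rcases Finset.mem_insert.1 e with e | e
        · exact bas_ne_zero i (ln_eq_bot.1 e.symm)
        · rcases Finset.mem_insert.1 e with e | e
          · exact hbne (ln_eq_bot.1 e.symm)
          · exact bot_notMem_outs hi (Finset.mem_sdiff.1 e).1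
      · rw [hf, map_kill_ln, map_kill_ln, kill_bas_self, map_zero]
    · rcases Finset.mem_insert.1 hx with rfl | hx
      · have hfb : f (ln p) = f (ln b) := by
          rw [hf, map_kill_ln, map_kill_ln, kill_of_apply_eq_zero hb0, hpb]
        by_cases hpo : ln p ∈ outs K
        · obtain ⟨y, hy, hyx⟩ := hcovOut _ hpo
          exact ⟨y, hy, hyx.trans hfb⟩
        · refine ⟨ln p, Finset.mem_sdiff.2 ⟨ln_mem_lines hpT, ?_⟩, hfb⟩
          intro e
          rcases Finset.mem_insert.1 e with e | e
          · obtain ⟨c, _, hc⟩ := ln_eq_ln e.symm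
            apply hbne
            rw [← ln_eq_bot, ← hpb, ← hc, map_smul, kill_bas_self, smul_zero, ln_zero]
          · rcases Finset.mem_insert.1 e with e | e
            · obtain ⟨c, _, hc⟩ := ln_eq_ln e.symm
              apply hp0
              rw [← hc]
              simp [hb0]
            · exact hpo (Finset.mem_sdiff.1 e).1
      · exact hcovOut x (Finset.mem_sdiff.1 hx).1
  have := card_image_add_le hRsub hcov
  rw [lines_image_kill, ← hf]
  omega

/-- The lines of the basis vectors, of the outputs, and the zero space are all different. -/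
theorem card_lines_ge {K : Finset (Fin n)} {T : Finset (Fin n → ℂ)} (h : Stage K T)
    (hK : 2 ≤ K.card) : 1 + K.card + (outs K).card ≤ (lines T).card := by
  have hex : ∀ i ∈ K, ∃ k ∈ K, k ≠ i := by
    intro i hi
    obtain ⟨k, hk, hki⟩ := Finset.exists_mem_ne (by omega : 1 < K.card) i
    exact ⟨k, hk, hki⟩
  obtain ⟨i0, hi0⟩ : K.Nonempty := Finset.card_pos.1 (by omega)
  set B := K.image fun k => ln (bas k) with hB
  have hBcard : B.card = K.card := by
    apply Finset.card_image_of_injOn
    intro k _ l _ hkl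
    by_contra hne
    obtain ⟨c, _, hc⟩ := ln_eq_ln hkl
    have := congrFun hc l
    simp only [Pi.smul_apply, bas_self, bas_of_ne (Ne.symm hne), smul_eq_mul, mul_zero] at this
    exact zero_ne_one this
  have hdisj : Disjoint B (outs K) := by
    rw [Finset.disjoint_left]
    intro x hx hxo
    obtain ⟨i, hi, rfl⟩ := Finset.mem_image.1 hx
    obtain ⟨k, hk, hki⟩ := hex i hi
    exact ln_bas_notMem_outs hk hki hxo
  have hbot : (⊥ : Submodule ℂ (Fin n → ℂ)) ∉ B ∪ outs K := by
    intro e
    rcases Finset.mem_union.1 e with e | e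
    · obtain ⟨i, _, hi⟩ := Finset.mem_image.1 e
      exact bas_ne_zero i (ln_eq_bot.1 hi)
    · exact bot_notMem_outs hi0 e
  have hsub : insert ⊥ (B ∪ outs K) ⊆ lines T := by
    intro x hx
    rcases Finset.mem_insert.1 hx with rfl | hx
    · rw [← ln_zero]
      exact ln_mem_lines h.zero_mem
    · rcases Finset.mem_union.1 hx with hx | hx
      · obtain ⟨i, hi, rfl⟩ := Finset.mem_image.1 hx
        exact ln_mem_lines (h.bas_mem i hi)
      · exact outs_subset h hx
  have := Finset.card_le_card hsub
  rw [Finset.card_insert_of_notMem hbot, Finset.card_union_of_disjoint hdisj, hBcard] at this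
  omega

end

end Vale.Agent.P344
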