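import Vale.Agent.P344.Trace

/-!
Counting the lines spanned by the computed linear forms: basic notions.
-/

namespace Vale.Agent.P344

open scoped Classical

noncomputable section

variable {n : ℕ}

/-- The line (or zero space) spanned by a vector. -/
def ln (v : Fin n → ℂ) : Submodule ℂ (Fin n → ℂ) := Submodule.span ℂ {v}

/-- The set of lines spanned by the members of `T`. -/
def lines (T : Finset (Fin n → ℂ)) : Finset (Submodule ℂ (Fin n → ℂ)) := T.image ln

lemma ln_zero : ln (0 : Fin n → ℂ) = ⊥ := by simp [ln]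

lemma ln_eq_bot {v : Fin n → ℂ} : ln v = ⊥ ↔ v = 0 := Submodule.span_singleton_eq_bot

lemma ln_smul {c : ℂ} (hc : c ≠ 0) (v : Fin n → ℂ) : ln (c • v) = ln v :=
  Submodule.span_singleton_smul_eq (isUnit_iff_ne_zero.2 hc) v

lemma ln_eq_ln {u v : Fin n → ℂ} (h : ln u = ln v) : ∃ c : ℂ, c ≠ 0 ∧ c • u = v := by
  obtain ⟨z, hz⟩ := Submodule.span_singleton_eq_span_singleton.1 h
  exact ⟨z, z.ne_zero, hz⟩

lemma ln_mem_lines {T : Finset (Fin n → ℂ)} {v : Fin n → ℂ} (h : v ∈ T) : ln v ∈ lines T :=
  Finset.mem_image_of_mem _ h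

lemma ln_smul_mem_lines {T : Finset (Fin n → ℂ)} (h0 : (0 : Fin n → ℂ) ∈ T) {v : Fin n → ℂ}
    (h : v ∈ T) (c : ℂ) : ln (c • v) ∈ lines T := by
  by_cases hc : c = 0
  · subst hc
    rw [zero_smul]
    exact ln_mem_lines h0
  · rw [ln_smul hc]
    exact ln_mem_lines h

lemma lines_insert (w : Fin n → ℂ) (T : Finset (Fin n → ℂ)) :
    lines (insert w T) = insert (ln w) (lines T) := Finset.image_insert _ _ _

lemma Tr.zero_mem {T : Finset (Fin n → ℂ)} {a s : ℕ} (h : Tr n T a s) : (0 : Fin n → ℂ) ∈ T := by
  induction h with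
  | base => simp
  | add _ _ _ ih => exact Finset.mem_insert_of_mem ih
  | sub _ _ _ ih => exact Finset.mem_insert_of_mem ih
  | smul _ _ _ ih => exact Finset.mem_insert_of_mem ih

lemma Tr.bas_mem {T : Finset (Fin n → ℂ)} {a s : ℕ} (h : Tr n T a s) (k : Fin n) : bas k ∈ T := by
  induction h with
  | base => simp
  | add _ _ _ ih => exact Finset.mem_insert_of_mem ih
  | sub _ _ _ ih => exact Finset.mem_insert_of_mem ih
  | smul _ _ _ ih => exact Finset.mem_insert_of_mem ih

/-- Each additive step creates at most one new line, a scalar step none. -/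
theorem Tr.card_lines_le {T : Finset (Fin n → ℂ)} {a s : ℕ} (h : Tr n T a s) :
    (lines T).card ≤ 1 + n + a := by
  induction h with
  | base =>
    calc (lines _).card ≤ (insert (0 : Fin n → ℂ) (Finset.univ.image (bas : Fin n → _))).card :=
          Finset.card_image_le
      _ ≤ (Finset.univ.image (bas : Fin n → _)).card + 1 := Finset.card_insert_le _ _
      _ ≤ (Finset.univ : Finset (Fin n)).card + 1 := Nat.add_le_add_right Finset.card_image_le 1
      _ = 1 + n + 0 := by simp; omega
  | @add T a s u v _ _ _ ih =>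
    rw [lines_insert]
    have := Finset.card_insert_le (ln (u + v)) (lines T)
    omega
  | @sub T a s u v _ _ _ ih =>
    rw [lines_insert]
    have := Finset.card_insert_le (ln (u - v)) (lines T)
    omega
  | smul c h hu ih =>
    rw [lines_insert, Finset.insert_eq_of_mem (ln_smul_mem_lines h.zero_mem hu c)]
    exact ih

/-- Set coordinate `i` to zero. -/
def kill (i : Fin n) : (Fin n → ℂ) →ₗ[ℂ] (Fin n → ℂ) where
  toFun v := fun k => if k = i then 0 else v k
  map_add' u v := by funext k; by_cases h : k = i <;> simp [h]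
  map_smul' c v := by funext k; by_cases h : k = i <;> simp [h]

lemma kill_apply (i : Fin n) (v : Fin n → ℂ) (k : Fin n) :
    kill i v k = if k = i then 0 else v k := rfl

lemma kill_bas_self (i : Fin n) : kill i (bas i) = 0 := by
  funext k
  by_cases h : k = i <;> simp [kill_apply, h, bas]

lemma kill_bas_of_ne {i k : Fin n} (h : k ≠ i) : kill i (bas k) = bas k := by
  funext l
  by_cases hl : l = i
  · subst hl
    simp [kill_apply, bas, Ne.symm h]
  · simp [kill_apply, hl]

lemma kill_of_apply_eq_zero {i : Fin n} {v : Fin n → ℂ} (h : v i = 0) : kill i v = v := by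
  funext l
  by_cases hl : l = i
  · subst hl
    simp [kill_apply, h]
  · simp [kill_apply, hl]

lemma map_kill_ln (i : Fin n) (v : Fin n → ℂ) : Submodule.map (kill i) (ln v) = ln (kill i v) := by
  simp [ln, Submodule.map_span]

lemma lines_image_kill (i : Fin n) (T : Finset (Fin n → ℂ)) :
    lines (T.image (kill i)) = (lines T).image (Submodule.map (kill i)) := by
  simp only [lines, Finset.image_image]
  refine Finset.image_congr fun v _ => ?_
  simp [map_kill_ln]

/-- Keep only the coordinates in `K`. -/
def proj (K : Finset (Fin n)) (v : Fin n → ℂ) : Fin n → ℂ := fun k => if k ∈ K then v k else 0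

lemma proj_apply (K : Finset (Fin n)) (v : Fin n → ℂ) (k : Fin n) :
    proj K v k = if k ∈ K then v k else 0 := rfl

lemma proj_univ (v : Fin n → ℂ) : proj Finset.univ v = v := by
  funext k
  simp [proj_apply]

lemma kill_proj (i : Fin n) (K : Finset (Fin n)) (v : Fin n → ℂ) :
    kill i (proj K v) = proj (K.erase i) v := by
  funext k
  by_cases h : k = i <;> simp [kill_apply, proj_apply, h]

/-- `Gen K T`: the induction principle saying that every member of `T` is obtained from `0` and the
basis vectors with index in `K` by repeatedly taking linear combinations of two earlier members. -/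
def Gen (K : Finset (Fin n)) (T : Finset (Fin n → ℂ)) : Prop :=
  ∀ P : (Fin n → ℂ) → Prop, P 0 → (∀ k ∈ K, P (bas k)) →
    (∀ u ∈ T, ∀ v ∈ T, ∀ α β : ℂ, P u → P v → α • u + β • v ∈ T → P (α • u + β • v)) →
    ∀ v ∈ T, P v

theorem Tr.gen {T : Finset (Fin n → ℂ)} {a s : ℕ} (h : Tr n T a s) : Gen Finset.univ T := by
  induction h with
  | base =>
    intro P h0 hb _ v hv
    rcases Finset.mem_insert.1 hv with rfl | hv
    · exact h0
    · obtain ⟨k, _, rfl⟩ := Finset.mem_image.1 hv
      exact hb k (Finset.mem_univ _)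
  | @add T a s u v _ hu hv ih =>
    intro P h0 hb hstep w hw
    have hT : ∀ x ∈ T, P x := ih P h0 hb fun x hx y hy α β hPx hPy hm =>
      hstep x (Finset.mem_insert_of_mem hx) y (Finset.mem_insert_of_mem hy) α β hPx hPy
        (Finset.mem_insert_of_mem hm)
    rcases Finset.mem_insert.1 hw with rfl | hw
    · have := hstep u (Finset.mem_insert_of_mem hu) v (Finset.mem_insert_of_mem hv) 1 1
        (hT u hu) (hT v hv) (by simp)
      simpa using this
    · exact hT w hw
  | @sub T a s u v _ hu hv ih =>
    intro P h0 hb hstep w hw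
    have hT : ∀ x ∈ T, P x := ih P h0 hb fun x hx y hy α β hPx hPy hm =>
      hstep x (Finset.mem_insert_of_mem hx) y (Finset.mem_insert_of_mem hy) α β hPx hPy
        (Finset.mem_insert_of_mem hm)
    rcases Finset.mem_insert.1 hw with rfl | hw
    · have := hstep u (Finset.mem_insert_of_mem hu) v (Finset.mem_insert_of_mem hv) 1 (-1)
        (hT u hu) (hT v hv) (by simp [sub_eq_add_neg])
      simpa [sub_eq_add_neg] using this
    · exact hT w hw
  | @smul T a s u c _ hu ih =>
    intro P h0 hb hstep w hw
    have hT : ∀ x ∈ T, P x := ih P h0 hb fun x hx y hy α β hPx hPy hm =>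
      hstep x (Finset.mem_insert_of_mem hx) y (Finset.mem_insert_of_mem hy) α β hPx hPy
        (Finset.mem_insert_of_mem hm)
    rcases Finset.mem_insert.1 hw with rfl | hw
    · have := hstep u (Finset.mem_insert_of_mem hu) u (Finset.mem_insert_of_mem hu) c 0
        (hT u hu) (hT u hu) (by simp)
      simpa using this
    · exact hT w hw

theorem Gen.kill {K : Finset (Fin n)} {T : Finset (Fin n → ℂ)} (h : Gen K T) (i : Fin n) :
    Gen (K.erase i) (T.image (Vale.Agent.P344.kill i)) := by
  intro P h0 hb hstep w hw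
  obtain ⟨v, hv, rfl⟩ := Finset.mem_image.1 hw
  refine h (fun x => P (Vale.Agent.P344.kill i x)) (by simpa using h0) ?_ ?_ v hv
  · intro k hk
    by_cases hki : k = i
    · subst hki
      simpa [kill_bas_self] using h0
    · rw [kill_bas_of_ne hki]
      exact hb k (Finset.mem_erase.2 ⟨hki, hk⟩)
  · intro x hx y hy α β hPx hPy hm
    rw [map_add, map_smul, map_smul]
    refine hstep _ (Finset.mem_image_of_mem _ hx) _ (Finset.mem_image_of_mem _ hy) α β hPx hPy ?_
    rw [← map_smul, ← map_smul, ← map_add]
    exact Finset.mem_image_of_mem _ hm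

/-- The data carried along the elimination of variables. -/
structure Stage (K : Finset (Fin n)) (T : Finset (Fin n → ℂ)) : Prop where
  gen : Gen K T
  zero_mem : (0 : Fin n → ℂ) ∈ T
  bas_mem : ∀ k ∈ K, bas k ∈ T
  out_mem : ∀ j : Fin n, proj K (row n j) ∈ T

theorem Tr.stage {T : Finset (Fin n → ℂ)} {a s : ℕ} (h : Tr n T a s) (hrows : ∀ j, row n j ∈ T) :
    Stage Finset.univ T where
  gen := h.gen
  zero_mem := h.zero_mem
  bas_mem := fun k _ => h.bas_mem k
  out_mem := fun j => by rw [proj_univ]; exact hrows j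

theorem Stage.kill {K : Finset (Fin n)} {T : Finset (Fin n → ℂ)} (h : Stage K T) (i : Fin n) :
    Stage (K.erase i) (T.image (Vale.Agent.P344.kill i)) where
  gen := h.gen.kill i
  zero_mem := Finset.mem_image.2 ⟨0, h.zero_mem, by simp⟩
  bas_mem := fun k hk => Finset.mem_image.2
    ⟨bas k, h.bas_mem k (Finset.mem_of_mem_erase hk), kill_bas_of_ne (Finset.ne_of_mem_erase hk)⟩
  out_mem := fun j => Finset.mem_image.2 ⟨_, h.out_mem j, kill_proj i K _⟩

/-- The lines spanned by the (restricted) rows of the Fourier matrix. -/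
def outs (K : Finset (Fin n)) : Finset (Submodule ℂ (Fin n → ℂ)) :=
  Finset.univ.image fun j : Fin n => ln (proj K (row n j))

lemma outs_subset {K : Finset (Fin n)} {T : Finset (Fin n → ℂ)} (h : Stage K T) :
    outs K ⊆ lines T := by
  intro x hx
  obtain ⟨j, _, rfl⟩ := Finset.mem_image.1 hx
  exact ln_mem_lines (h.out_mem j)

lemma outs_erase (K : Finset (Fin n)) (i : Fin n) :
    outs (K.erase i) = (outs K).image (Submodule.map (kill i)) := by
  simp only [outs, Finset.image_image]
  refine Finset.image_congr fun j _ => ?_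
  simp [map_kill_ln, kill_proj]

/-- Removing a set `R` whose images are still attained outside `R`. -/
lemma card_image_add_le {α β : Type*} [DecidableEq α] [DecidableEq β] {X R : Finset α} {f : α → β} (hR : R ⊆ X)
    (hcov : ∀ x ∈ R, ∃ y ∈ X \ R, f y = f x) : (X.image f).card + R.card ≤ X.card := by
  have h1 : X.image f = (X \ R).image f := by
    apply Finset.Subset.antisymm
    · intro z hz
      obtain ⟨x, hx, rfl⟩ := Finset.mem_image.1 hz
      by_cases hxR : x ∈ R
      · obtain ⟨y, hy, hyx⟩ := hcov x hxR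
        exact Finset.mem_image.2 ⟨y, hy, hyx⟩
      · exact Finset.mem_image_of_mem _ (Finset.mem_sdiff.2 ⟨hx, hxR⟩)
    · exact Finset.image_subset_image Finset.sdiff_subset
  have h2 : ((X \ R).image f).card ≤ (X \ R).card := Finset.card_image_le
  have h3 := Finset.card_sdiff_add_card_eq_card hR
  rw [h1]
  omega

end

end Vale.Agent.P344
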