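import Vale.Agent.P344.LemmaA

/-!
The number of distinct output lines on a set of coordinates, and the main count.
-/

namespace Vale.Agent.P344

open scoped Classical

noncomputable section

variable {n : ℕ}

lemma card_outs_univ (hn : 2 ≤ n) : (outs (Finset.univ : Finset (Fin n))).card = n := by
  have : Function.Injective fun j : Fin n => ln (proj Finset.univ (row n j)) := by
    intro j j' hjj
    obtain ⟨c, _, hc⟩ := ln_eq_ln hjj
    simp only [proj_univ] at hc
    have e0 := congrFun hc ⟨0, by omega⟩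
    have e1 := congrFun hc ⟨1, by omega⟩
    simp only [Pi.smul_apply, row, mul_zero, pow_zero, smul_eq_mul, mul_one] at e0 e1
    rw [e0, one_mul] at e1
    exact Fin.ext ((zeta_prim (by omega)).pow_inj j.2 j'.2 e1)
  rw [outs, Finset.card_image_of_injective _ this, Finset.card_univ, Fintype.card_fin]

lemma two_le_card_outs (hn : 2 ≤ n) {K : Finset (Fin n)} (hK : 2 ≤ K.card) :
    2 ≤ (outs K).card := by
  obtain ⟨i, hi, j, hj, hij⟩ := Finset.one_lt_card.1 (by omega : 1 < K.card)
  refine Finset.one_lt_card.2 ⟨ln (proj K (row n ⟨0, by omega⟩)), Finset.mem_image_of_mem _ (Finset.mem_univ _),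
    ln (proj K (row n ⟨1, by omega⟩)), Finset.mem_image_of_mem _ (Finset.mem_univ _), ?_⟩
  intro e
  obtain ⟨c, _, hc⟩ := ln_eq_ln e
  have e0 := congrFun hc i
  have e1 := congrFun hc j
  simp only [Pi.smul_apply, proj_apply, hi, hj, if_true, row, zero_mul, pow_zero, smul_eq_mul,
    mul_one, one_mul] at e0 e1
  exact hij (Fin.ext ((zeta_prim (by omega)).pow_inj i.2 j.2 (e0.symm.trans e1)))

/-- The number of distinct output lines on a nonempty set of coordinates divides `n`. -/
lemma card_outs_dvd (hn : 0 < n) {K : Finset (Fin n)} (hK : K.Nonempty) : (outs K).card ∣ n := by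
  obtain ⟨k0, hk0⟩ := hK
  have hz : zeta n ≠ 0 := zeta_ne_zero n
  have hzn : zeta n ^ n = 1 := (zeta_prim hn).pow_eq_one
  set w : Fin n → ℂ := fun k => if k ∈ K then zeta n ^ (k : ℕ) * (zeta n ^ (k0 : ℕ))⁻¹ else 1 with hw
  have hwn : w ^ n = 1 := by
    funext k
    simp only [Pi.pow_apply, hw, Pi.one_apply]
    by_cases hk : k ∈ K
    · rw [if_pos hk, mul_pow, inv_pow, ← pow_mul, ← pow_mul, mul_comm (k : ℕ), mul_comm (k0 : ℕ),
        pow_mul, pow_mul, hzn]
      simp
    · rw [if_neg hk, one_pow]
  have hwk0 : ∀ a : ℕ, (w ^ a) k0 = 1 := by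
    intro a
    simp only [Pi.pow_apply, hw, if_pos hk0]
    rw [mul_inv_cancel₀ (pow_ne_zero _ hz), one_pow]
  have hwout : ∀ (a : ℕ) (k : Fin n), k ∉ K → (w ^ a) k = 1 := by
    intro a k hk
    simp only [Pi.pow_apply, hw, if_neg hk, one_pow]
  have hrow : ∀ j : Fin n, ln (proj K (row n j)) = ln (proj K (w ^ (j : ℕ))) := by
    intro j
    have : proj K (row n j) = (zeta n ^ ((j : ℕ) * (k0 : ℕ))) • proj K (w ^ (j : ℕ)) := by
      funext k
      by_cases hk : k ∈ K
      · simp only [proj_apply, if_pos hk, Pi.smul_apply, Pi.pow_apply, hw, row, smul_eq_mul]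
        rw [mul_pow, inv_pow, ← pow_mul, ← pow_mul, mul_comm (k : ℕ), mul_comm (k0 : ℕ)]
        field_simp
      · simp [proj_apply, hk]
    rw [this, ln_smul (pow_ne_zero _ hz)]
  set S : Finset (Fin n → ℂ) := (Finset.range (orderOf w)).image fun a => w ^ a with hS
  have hpos : 0 < orderOf w := orderOf_pos_iff.2 (isOfFinOrder_iff_pow_eq_one.2 ⟨n, hn, hwn⟩)
  have hScard : S.card = orderOf w := by
    rw [hS, Finset.card_image_of_injOn, Finset.card_range]
    intro a ha b hb hab
    exact pow_injOn_Iio_orderOf (by simpa using ha) (by simpa using hb) hab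
  have houts : outs K = S.image fun u => ln (proj K u) := by
    ext x
    simp only [outs, hS, Finset.mem_image, Finset.mem_univ, true_and, Finset.mem_range]
    constructor
    · rintro ⟨j, rfl⟩
      refine ⟨w ^ (j : ℕ), ⟨(j : ℕ) % orderOf w, Nat.mod_lt _ hpos, pow_mod_orderOf w j⟩, (hrow j).symm⟩
    · rintro ⟨_, ⟨a, ha, rfl⟩, rfl⟩
      have han : a < n := lt_of_lt_of_le ha (orderOf_le_of_pow_eq_one hn hwn)
      exact ⟨⟨a, han⟩, hrow ⟨a, han⟩⟩
  have hinj : Set.InjOn (fun u => ln (proj K u)) ↑S := by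
    intro u hu u' hu' huu
    obtain ⟨a, _, rfl⟩ := Finset.mem_image.1 (Finset.mem_coe.1 hu)
    obtain ⟨b, _, rfl⟩ := Finset.mem_image.1 (Finset.mem_coe.1 hu')
    obtain ⟨c, _, hc⟩ := ln_eq_ln huu
    have e0 := congrFun hc k0
    simp only [Pi.smul_apply, proj_apply, if_pos hk0, hwk0, smul_eq_mul, mul_one] at e0
    rw [e0, one_smul] at hc
    funext k
    by_cases hk : k ∈ K
    · have := congrFun hc k
      simpa only [proj_apply, if_pos hk] using this
    · rw [hwout a k hk, hwout b k hk]
  rw [houts, Finset.card_image_of_injOn hinj, hScard]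
  exact orderOf_dvd_of_pow_eq_one hwn

/-- The number of divisors `d` of `n` with `2 ≤ d < r`. -/
def cnt (n r : ℕ) : ℕ := (n.divisors.filter fun d => 2 ≤ d ∧ d < r).card

lemma cnt_lt {r r' : ℕ} (hn : 0 < n) (hd : r' ∣ n) (h2 : 2 ≤ r') (hlt : r' < r) :
    cnt n r' + 1 ≤ cnt n r := by
  apply Finset.card_lt_card
  refine Finset.ssubset_iff_of_subset ?_ |>.2 ⟨r', ?_, ?_⟩
  · intro d hd
    simp only [Finset.mem_filter] at hd ⊢
    exact ⟨hd.1, hd.2.1, by omega⟩
  · simp only [Finset.mem_filter, Nat.mem_divisors]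
    exact ⟨⟨hd, hn.ne'⟩, h2, hlt⟩
  · simp

lemma cnt_top (hn : 2 ≤ n) : cnt n n + 2 ≤ n.divisors.card := by
  have hsub : (n.divisors.filter fun d => 2 ≤ d ∧ d < n) ⊆ n.divisors \ {1, n} := by
    intro d hd
    simp only [Finset.mem_filter, Finset.mem_sdiff, Finset.mem_insert, Finset.mem_singleton] at hd ⊢
    exact ⟨hd.1, by omega⟩
  have h1 := Finset.card_le_card hsub
  have h2 : ({1, n} : Finset ℕ) ⊆ n.divisors := by
    intro d hd
    simp only [Finset.mem_insert, Finset.mem_singleton] at hd
    rcases hd with rfl | rfl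
    · exact Nat.one_mem_divisors.2 (by omega)
    · exact Nat.mem_divisors_self _ (by omega)
  have h3 := Finset.card_sdiff_add_card_eq_card h2
  have h4 : ({1, n} : Finset ℕ).card = 2 := Finset.card_pair (by omega)
  unfold cnt
  omega

theorem main_count (hn : 2 ≤ n) : ∀ (m : ℕ) (K : Finset (Fin n)) (T : Finset (Fin n → ℂ)),
    K.card = m + 2 → Stage K T →
    3 * K.card + (outs K).card ≤ (lines T).card + cnt n (outs K).card + 3 := by
  intro m
  induction m with
  | zero =>
    intro K T hK h
    have := card_lines_ge h (by omega)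
    omega
  | succ m ih =>
    intro K T hK h
    obtain ⟨i, hi, h3⟩ := exists_kill_three hn h (by omega)
    have hK' : (K.erase i).card = m + 2 := by
      rw [Finset.card_erase_of_mem hi]
      omega
    have IH := ih (K.erase i) _ hK' (h.kill i)
    have hle : (outs (K.erase i)).card ≤ (outs K).card := by
      rw [outs_erase]
      exact Finset.card_image_le
    rcases Nat.eq_or_lt_of_le hle with heq | hlt
    · rw [heq] at IH
      omega
    · obtain ⟨k, hk, hki⟩ := Finset.exists_mem_ne (by omega : 1 < K.card) i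
      have hB := card_lines_kill_le h hi hk hki
      have hc := cnt_lt (n := n) (by omega)
        (card_outs_dvd (by omega) (Finset.card_pos.1 (by omega : 0 < (K.erase i).card)))
        (two_le_card_outs hn (by omega : 2 ≤ (K.erase i).card)) hlt
      omega

/-- Lower bound for the number of additive gates. -/
theorem additive_bound (hn : 2 ≤ n) {T : Finset (Fin n → ℂ)} {a s : ℕ} (h : Tr n T a s)
    (hrows : ∀ j, row n j ∈ T) : 3 * n ≤ a + n.divisors.card + 2 := by
  have h1 := main_count hn (n - 2) Finset.univ T (by rw [Finset.card_univ, Fintype.card_fin]; omega)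
    (h.stage hrows)
  rw [card_outs_univ hn, Finset.card_univ, Fintype.card_fin] at h1
  have h2 := h.card_lines_le
  have h3 := cnt_top hn
  omega

/-- Lower bound for the total number of gates. -/
theorem total_bound (hn : 2 ≤ n) {gs : List Gate} {out : Fin n → ℕ} (h : Computes n gs out) :
    4 * n ≤ gs.length + 2 * n.divisors.card + 2 := by
  obtain ⟨T, a, s, hT, hlen, hrows⟩ := exists_tr h
  have h1 := additive_bound hn hT hrows
  have h2 := scalar_bound (by omega) hT hrows
  omega

end

end Vale.Agent.P344
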