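import Vale.Agent.P344.DefK

/-!
Symbolic execution of a linear circuit: every computed value is a linear form,
recorded by its coefficient vector.
-/

namespace Vale.Agent.P344

open scoped Classical

noncomputable section

variable {n : ℕ}

/-- Symbolic run. -/
def runV : List Gate → List (Fin n → ℂ) → List (Fin n → ℂ)
  | [], vals => vals
  | g :: gs, vals => runV gs (vals ++ [g.evalV vals])

/-- Evaluation of the linear form with coefficient vector `v` at the point `x`. -/
def pair (x : Fin n → ℂ) : (Fin n → ℂ) →ₗ[ℂ] ℂ where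
  toFun v := ∑ k, v k * x k
  map_add' u v := by simp [add_mul, Finset.sum_add_distrib]
  map_smul' c v := by simp [Finset.mul_sum, mul_assoc]

lemma pair_apply (x v : Fin n → ℂ) : pair x v = ∑ k, v k * x k := rfl

lemma getD_map_pair (x : Fin n → ℂ) (l : List (Fin n → ℂ)) (i : ℕ) :
    (l.map (pair x)).getD i 0 = pair x (l.getD i 0) := by
  have := List.getD_map (l := l) (d := (0 : Fin n → ℂ)) (n := i) (pair x)
  simpa using this

lemma eval_map_pair (x : Fin n → ℂ) (l : List (Fin n → ℂ)) (g : Gate) :
    g.eval (l.map (pair x)) = pair x (g.evalV l) := by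
  cases g <;> simp only [Gate.eval, Gate.evalV, getD_map_pair, map_add, map_sub, map_smul, smul_eq_mul]

lemma run_map_pair (x : Fin n → ℂ) (gs : List Gate) (l : List (Fin n → ℂ)) :
    run gs (l.map (pair x)) = (runV gs l).map (pair x) := by
  induction gs generalizing l with
  | nil => rfl
  | cons g gs ih =>
    simp only [run, runV]
    rw [eval_map_pair, ← ih]
    simp

/-- The standard basis vector. -/
def bas (k : Fin n) : Fin n → ℂ := Pi.single k 1

lemma pair_bas (x : Fin n → ℂ) (k : Fin n) : pair x (bas k) = x k := by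
  simp [pair_apply, bas, Pi.single_apply]

lemma pair_bas' (v : Fin n → ℂ) (k : Fin n) : pair (bas k) v = v k := by
  simp [pair_apply, bas, Pi.single_apply]

lemma ofFn_eq_map (x : Fin n → ℂ) : List.ofFn x = (List.ofFn (bas : Fin n → _)).map (pair x) := by
  rw [List.map_ofFn]
  congr 1
  funext k
  simp [pair_bas]

/-- `Tr n T a s`: the finite set `T` of coefficient vectors consists of `0`, the basis vectors and
the values of `a` additive steps and `s` scalar steps, each applied to earlier members. -/
inductive Tr (n : ℕ) : Finset (Fin n → ℂ) → ℕ → ℕ → Prop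
  | base : Tr n (insert 0 (Finset.univ.image (bas : Fin n → _))) 0 0
  | add {T : Finset (Fin n → ℂ)} {a s : ℕ} {u v : Fin n → ℂ} :
      Tr n T a s → u ∈ T → v ∈ T → Tr n (insert (u + v) T) (a + 1) s
  | sub {T : Finset (Fin n → ℂ)} {a s : ℕ} {u v : Fin n → ℂ} :
      Tr n T a s → u ∈ T → v ∈ T → Tr n (insert (u - v) T) (a + 1) s
  | smul {T : Finset (Fin n → ℂ)} {a s : ℕ} {u : Fin n → ℂ} (c : ℂ) :
      Tr n T a s → u ∈ T → Tr n (insert (c • u) T) a (s + 1)

lemma getD_mem (l : List (Fin n → ℂ)) (i : ℕ) : l.getD i 0 ∈ insert 0 l.toFinset := by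
  by_cases h : i < l.length
  · rw [List.getD_eq_getElem _ _ h]
    simp
  · rw [List.getD_eq_default _ _ (by omega)]
    simp

lemma toFinset_append_singleton (l : List (Fin n → ℂ)) (w : Fin n → ℂ) :
    insert 0 (l ++ [w]).toFinset = insert w (insert 0 l.toFinset) := by
  ext v
  simp
  tauto

lemma tr_runV (gs : List Gate) : ∀ (l : List (Fin n → ℂ)) (a s : ℕ),
    Tr n (insert 0 l.toFinset) a s →
    ∃ a' s', Tr n (insert 0 (runV gs l).toFinset) a' s' ∧ a' + s' = a + s + gs.length := by
  induction gs with
  | nil => intro l a s h; exact ⟨a, s, h, by simp⟩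
  | cons g gs ih =>
    intro l a s h
    simp only [runV]
    cases g with
    | add i j =>
      have h' : Tr n (insert 0 (l ++ [(Gate.add i j).evalV l]).toFinset) (a + 1) s := by
        rw [toFinset_append_singleton]
        exact Tr.add h (getD_mem l i) (getD_mem l j)
      obtain ⟨a', s', h1, h2⟩ := ih _ _ _ h'
      exact ⟨a', s', h1, by simp [h2]; omega⟩
    | sub i j =>
      have h' : Tr n (insert 0 (l ++ [(Gate.sub i j).evalV l]).toFinset) (a + 1) s := by
        rw [toFinset_append_singleton]
        exact Tr.sub h (getD_mem l i) (getD_mem l j)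
      obtain ⟨a', s', h1, h2⟩ := ih _ _ _ h'
      exact ⟨a', s', h1, by simp [h2]; omega⟩
    | smul c i =>
      have h' : Tr n (insert 0 (l ++ [(Gate.smul c i).evalV l]).toFinset) a (s + 1) := by
        rw [toFinset_append_singleton]
        exact Tr.smul c h (getD_mem l i)
      obtain ⟨a', s', h1, h2⟩ := ih _ _ _ h'
      exact ⟨a', s', h1, by simp [h2]; omega⟩

/-- Row `j` of the Fourier matrix. -/
def row (n : ℕ) (j : Fin n) : Fin n → ℂ := fun k => zeta n ^ ((j : ℕ) * (k : ℕ))

/-- The symbolic value at an output position is the corresponding row. -/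
theorem runV_out {gs : List Gate} {out : Fin n → ℕ} (h : Computes n gs out) (j : Fin n) :
    (runV gs (List.ofFn (bas : Fin n → _))).getD (out j) 0 = row n j := by
  funext k
  have := h (bas k) j
  rw [ofFn_eq_map, run_map_pair, getD_map_pair, pair_bas'] at this
  rw [this]
  simp [row, bas, Pi.single_apply]

/-- From a circuit computing the transform we get a trace containing all the rows. -/
theorem exists_tr {gs : List Gate} {out : Fin n → ℕ} (h : Computes n gs out) :
    ∃ T a s, Tr n T a s ∧ a + s = gs.length ∧ ∀ j, row n j ∈ T := by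
  have hbase : Tr n (insert 0 (List.ofFn (bas : Fin n → _)).toFinset) 0 0 := by
    have : (List.ofFn (bas : Fin n → _)).toFinset = Finset.univ.image (bas : Fin n → _) := by
      ext v
      simp [List.mem_ofFn]
    rw [this]
    exact Tr.base
  obtain ⟨a, s, h1, h2⟩ := tr_runV gs _ _ _ hbase
  refine ⟨_, a, s, h1, by omega, fun j => ?_⟩
  have key : (runV gs (List.ofFn (bas : Fin n → _))).getD (out j) 0 = row n j := by
    funext k
    have := h (bas k) j
    rw [ofFn_eq_map, run_map_pair, getD_map_pair, pair_bas'] at this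
    rw [this]
    simp [row, bas, Pi.single_apply]
  rw [← key]
  exact getD_mem _ _

end

end Vale.Agent.P344
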